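import Vale.Agent.P155B.Wien

/-!
# P155: Markov property, scaling, bridges
-/

set_option linter.all false

namespace Vale.Agent.P155.BL

open MeasureTheory ProbabilityTheory Set Vale.Agent.P155.Q1
open scoped NNReal ENNReal ComplexConjugate

noncomputable section

variable {W : Measure Pa} {r s t : ℝ} {x y z : ℂ}

theorem lintegral_indep {Θ A B : Type*} [MeasurableSpace Θ] [MeasurableSpace A] [MeasurableSpace B]
    {P : Measure Θ} [IsProbabilityMeasure P] {X : Θ → A} {Y : Θ → B} (h : IndepFun X Y P)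
    (hX : Measurable X) (hY : Measurable Y) {F : A × B → ℝ≥0∞} (hF : Measurable F) :
    ∫⁻ ω, F (X ω, Y ω) ∂P = ∫⁻ ω, ∫⁻ ω', F (X ω, Y ω') ∂P ∂P := by
  rw [← lintegral_map hF (hX.prodMk hY),
    (indepFun_iff_map_prod_eq_prod_map_map hX.aemeasurable hY.aemeasurable).1 h,
    lintegral_prod _ hF.aemeasurable, lintegral_map hF.lintegral_prod_right' hX]
  exact lintegral_congr fun ω => lintegral_map (hF.comp measurable_prodMk_left) hY

/-- the increments from time `0` -/
def D (c : ℂ) (s : ℝ) : Lin := E c s.toNNReal - E c 0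

theorem D_apply (c : ℂ) (s : ℝ) (ω : Pa) : (D c s).1 ω = (c * bm 0 ω s).re := by
  simp [D, bm_apply, mul_sub]

/-- the shifted path -/
def th (s : ℝ) (ω : Pa) : Pa := ⟨fun u => ω (s.toNNReal + u) - ω s.toNNReal, by fun_prop⟩
/-- scaling and rotation -/
def scl (c : ℂ) (ω : Pa) : Pa := ⟨fun u => c * ω (u / ‖c‖₊ ^ 2), by fun_prop⟩
/-- time reversal -/
def rv (t : ℝ) (ω : Pa) : Pa :=
  ⟨fun u => ω (t.toNNReal - u) - ω t.toNNReal + (ω (max u t.toNNReal) - ω t.toNNReal), by fun_prop⟩
/-- addition of a segment -/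
def adl (t : ℝ) (x y : ℂ) (γ : Pr) : Pr :=
  ⟨fun s => γ s + (x + fr t s * (y - x)), by unfold fr; fun_prop⟩

theorem th_apply (s : ℝ) (ω : Pa) (u : ℝ≥0) : th s ω u = ω (s.toNNReal + u) - ω s.toNNReal := rfl
theorem scl_apply (c : ℂ) (ω : Pa) (u : ℝ≥0) : scl c ω u = c * ω (u / ‖c‖₊ ^ 2) := rfl
theorem rv_apply (t : ℝ) (ω : Pa) (u : ℝ≥0) : rv t ω u =
    ω (t.toNNReal - u) - ω t.toNNReal + (ω (max u t.toNNReal) - ω t.toNNReal) := rfl
theorem adl_apply (t : ℝ) (x y : ℂ) (γ : Pr) (s : ℝ) :
    adl t x y γ s = γ s + (x + fr t s * (y - x)) := rfl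

section meas

variable {α : Type*} [MeasurableSpace α] {T : α → ℝ} {Xf Yf : α → ℂ} {w : α → Pa} {g : α → Pr}

@[fun_prop] theorem measurable_th (ht : Measurable T) (hw : Measurable w) :
    Measurable fun a => th (T a) (w a) :=
  measurable_of_ev fun s => by simp only [th_apply]; fun_prop

@[fun_prop] theorem measurable_scl (hx : Measurable Xf) (hw : Measurable w) :
    Measurable fun a => scl (Xf a) (w a) :=
  measurable_of_ev fun s => by simp only [scl_apply]; fun_prop

@[fun_prop] theorem measurable_rv (ht : Measurable T) (hw : Measurable w) :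
    Measurable fun a => rv (T a) (w a) :=
  measurable_of_ev fun s => by simp only [rv_apply]; fun_prop

@[fun_prop] theorem measurable_adl (ht : Measurable T) (hx : Measurable Xf) (hy : Measurable Yf)
    (hg : Measurable g) : Measurable fun a => adl (T a) (Xf a) (Yf a) (g a) :=
  measurable_of_ev fun s => by simp only [adl_apply]; fun_prop

end meas

theorem br_eq_adl (t : ℝ) (x y : ℂ) (ω : Pa) : br t x y ω = adl t x y (br t 0 0 ω) := by
  ext s
  simp only [adl_apply, br_apply, bm_apply]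
  ring

theorem bm_th (hs : 0 ≤ s) (x : ℂ) (ω : Pa) (u : ℝ) :
    bm (bm x ω s) (th s ω) u = bm x ω (s + max u 0) := by
  simp only [bm_apply, th_apply]
  rw [Real.toNNReal_add hs (le_max_right _ _), show (max u 0).toNNReal = u.toNNReal from
    NNReal.eq (by simp), add_zero, sub_self, sub_zero]
  ring

theorem sft_bm (hs : 0 ≤ s) (x : ℂ) (ω : Pa) : sft s (bm x ω) = bm (bm x ω s) (th s ω) :=
  ContinuousMap.ext fun u => (bm_th hs x ω u).symm

theorem stp_bm (t : ℝ) (x : ℂ) (ω : Pa) : stp t (bm x ω) = br t x (bm x ω t) ω := by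
  ext s
  simp [br_apply]

theorem hk_eq (ht : 0 < t) (z : ℂ) :
    hk t z = gaussianPDF 0 t.toNNReal z.re * gaussianPDF 0 t.toNNReal z.im := by
  rw [gaussianPDF, gaussianPDF, ← ENNReal.ofReal_mul (gaussianPDFReal_nonneg _ _ _), hk]
  congr 1
  simp only [gaussianPDFReal, Real.coe_toNNReal _ ht.le, sub_zero]
  rw [mul_mul_mul_comm, ← mul_inv, Real.mul_self_sqrt (by positivity), ← Real.exp_add,
    Complex.sq_norm, Complex.normSq_apply]
  congr 2
  ring

theorem hk_sym (hs : 0 < s) (hr : 0 < r) (v w ζ : ℂ) :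
    hk (s + r) v * (hk s (ζ + (s / (s + r) : ℝ) * w) * hk r ((r / (s + r) : ℝ) * w - ζ)) =
    hk (s + r) w * (hk s (ζ + (s / (s + r) : ℝ) * v) * hk r ((r / (s + r) : ℝ) * v - ζ)) := by
  simp only [hk]
  rw [← ENNReal.ofReal_mul (by positivity), ← ENNReal.ofReal_mul (by positivity),
    ← ENNReal.ofReal_mul (by positivity), ← ENNReal.ofReal_mul (by positivity)]
  congr 1
  have e : ∀ a b c d e f : ℝ, a * Real.exp b * (c * Real.exp d * (e * Real.exp f)) =
      a * c * e * Real.exp (b + d + f) := fun a b c d e f => by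
    rw [Real.exp_add, Real.exp_add]; ring
  rw [e, e]
  congr 2
  simp only [Complex.sq_norm, Complex.normSq_apply, Complex.add_re, Complex.add_im, Complex.sub_re,
    Complex.sub_im, Complex.re_ofReal_mul, Complex.im_ofReal_mul]
  field_simp
  ring

theorem rv_min {u v T : ℝ} (h1 : 0 ≤ u) (h2 : 0 ≤ v) (h3 : 0 ≤ T) :
    min (max (T - u) 0) (max (T - v) 0) - min (max (T - u) 0) T - min T (max (T - v) 0) + min T T +
      (min (max (T - u) 0) (max v T) - min (max (T - u) 0) T - min T (max v T) + min T T) +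
      (min (max u T) (max (T - v) 0) - min (max u T) T - min T (max (T - v) 0) + min T T) +
      (min (max u T) (max v T) - min (max u T) T - min T (max v T) + min T T) = min u v := by
  have p1 : max (T - u) 0 ≤ T := max_le (by linarith) h3
  have p2 : max (T - v) 0 ≤ T := max_le (by linarith) h3
  have q1 := le_max_right u T
  have q2 := le_max_right v T
  rw [min_eq_left p1, min_eq_right p2, min_eq_left (p1.trans q2), min_eq_right (p2.trans q1),
    min_eq_left q2, min_eq_right q1, min_self, ← max_min_distrib_right, ← max_min_distrib_right,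
    min_sub_sub_left]
  simp only [max_def, min_def]
  split_ifs <;> linarith

namespace IsWiener

variable (h : IsWiener W)
include h

theorem cv_D (c d : ℂ) (s t : ℝ) :
    h.cv (D c s) (D d t) = (c * conj d).re * min (max s 0) (max t 0) := by
  simp [D, cv_E]

theorem th_map (s : ℝ) : W.map (th s) = W :=
  h.map_eq (by fun_prop) (fun c u => E c (s.toNNReal + u) - E c s.toNNReal)
    (fun c u ω => by simp [th_apply, mul_sub]) fun c d u v => by
      simp only [map_sub, LinearMap.sub_apply, cv_E, NNReal.coe_add, min_add_add_left,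
        min_self, min_eq_left (le_add_of_nonneg_right (NNReal.coe_nonneg _)),
        min_eq_right (le_add_of_nonneg_right (NNReal.coe_nonneg _))]
      ring

theorem scale {c : ℂ} (hc : c ≠ 0) : W.map (scl c) = W :=
  h.map_eq (by fun_prop) (fun a u => E (a * c) (u / ‖c‖₊ ^ 2))
    (fun a u ω => by simp [scl_apply, mul_assoc]) fun a b u v => by
      have : (0 : ℝ) < ‖c‖ ^ 2 := by positivity
      rw [cv_E, show a * c * conj (b * c) = (‖c‖ ^ 2 : ℝ) * (a * conj b) by
        rw [map_mul, mul_mul_mul_comm, Complex.mul_conj, Complex.normSq_eq_norm_sq, mul_comm],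
        Complex.re_ofReal_mul]
      push_cast
      rw [min_div_div_right this.le]
      field_simp

theorem rv_map (t : ℝ) : W.map (rv t) = W :=
  h.map_eq (by fun_prop) (fun c u => E c (t.toNNReal - u) - E c t.toNNReal +
    (E c (max u t.toNNReal) - E c t.toNNReal)) (fun c u ω => by simp [rv_apply, mul_sub, mul_add])
    fun c d u v => by
      simp only [map_sub, map_add, LinearMap.sub_apply, LinearMap.add_apply, cv_E, NNReal.coe_max,
        NNReal.coe_sub_def]
      generalize (c * conj d).re = k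
      have h1 := u.coe_nonneg
      have h2 := v.coe_nonneg
      have h3 := t.toNNReal.coe_nonneg
      generalize (t.toNNReal : ℝ) = T at *
      generalize (u : ℝ) = u at *
      generalize (v : ℝ) = v at *
      simp only [← mul_sub, ← mul_add]
      rw [← rv_min h1 h2 h3]
      congr 1
      ring

theorem indep_th (hs : 0 ≤ s) : IndepFun (fun ω => stp s (bm 0 ω)) (th s) W :=
  indepFun_of_coe (indepFun_of_coe (h.indep (X := fun ω u => th s ω u)
    (Y := fun ω u => stp s (bm 0 ω) u) (fun c u => E c (s.toNNReal + u) - E c s.toNNReal)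
    (fun c u => D c (min u s)) (fun c u ω => by simp [th_apply, mul_sub])
    (fun c u ω => D_apply _ _ _) fun c d u v => by
      have h1 : ((min v s).toNNReal : ℝ) ≤ s.toNNReal :=
        NNReal.coe_le_coe.2 (Real.toNNReal_le_toNNReal (min_le_right _ _))
      simp only [D, map_sub, LinearMap.sub_apply, cv_E, NNReal.coe_add, NNReal.coe_zero,
        min_eq_right h1, min_eq_right (h1.trans (le_add_of_nonneg_right u.coe_nonneg)),
        min_eq_right (NNReal.coe_nonneg _),
        min_eq_right (add_nonneg (NNReal.coe_nonneg _) (NNReal.coe_nonneg _))]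
      ring)).symm

theorem markov0 (hs : 0 ≤ s) {H : Pr × Pa → ℝ≥0∞} (hH : Measurable H) :
    ∫⁻ ω, H (stp s (bm 0 ω), th s ω) ∂W = ∫⁻ ω, ∫⁻ ω', H (stp s (bm 0 ω), ω') ∂W ∂W := by
  have := h.prob
  rw [lintegral_indep (h.indep_th hs) (by fun_prop) (by fun_prop) hH]
  refine lintegral_congr fun ω => ?_
  rw [← lintegral_map (f := fun ω' => H (stp s (bm 0 ω), ω')) (by fun_prop) (by fun_prop),
    h.th_map]

/-- **The Markov property.** -/
theorem markov (hs : 0 ≤ s) (x : ℂ) {H : Pr × Pr → ℝ≥0∞} (hH : Measurable H) :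
    ∫⁻ ω, H (stp s (bm x ω), sft s (bm x ω)) ∂W =
      ∫⁻ ω, ∫⁻ ω', H (stp s (bm x ω), bm (bm x ω s) ω') ∂W ∂W := by
  have e : ∀ ω, stp s (bm x ω) = adl s x x (stp s (bm 0 ω)) := fun ω => by
    ext u
    simp [adl_apply, bm_add x, add_comm]
  have e' : ∀ ω, bm x ω s = x + stp s (bm 0 ω) s := fun ω => by simp [bm_add x]
  simp only [sft_bm hs, e, e']
  exact h.markov0 hs (H := fun q => H (adl s x x q.1, bm (x + q.1 s) q.2)) (by fun_prop)

theorem law0 (ht : 0 < t) : W.map (fun ω => bm 0 ω t) = volume.withDensity (hk t) := by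
  have := h.prob
  have h0 : t.toNNReal ≠ 0 := (Real.toNNReal_pos.2 ht).ne'
  have m1 : Measurable fun ω : Pa => (ω t.toNNReal).re := by fun_prop
  have m2 : Measurable fun ω : Pa => (ω t.toNNReal).im := by fun_prop
  have h1 := (indepFun_iff_map_prod_eq_prod_map_map m1.aemeasurable m2.aemeasurable).1
    (h.ind.comp (measurable_pi_apply t.toNNReal) (measurable_pi_apply t.toNNReal))
  rw [(h.re.hasLaw_eval _).map_eq, (h.im.hasLaw_eval _).map_eq, gaussianReal_of_var_ne_zero _ h0,
    prod_withDensity (measurable_gaussianPDF _ _) (measurable_gaussianPDF _ _)] at h1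
  have e : (fun ω => bm 0 ω t) =ᵐ[W] Complex.measurableEquivRealProd.symm ∘
      fun ω : Pa => ((ω t.toNNReal).re, (ω t.toNNReal).im) := by
    filter_upwards [h.ae_zero] with ω hω
    rw [bm_apply, hω, sub_zero, zero_add, Function.comp_apply,
      Complex.measurableEquivRealProd_symm_apply]
  rw [Measure.map_congr e, ← Measure.map_map (MeasurableEquiv.measurable _) (m1.prodMk m2), h1]
  ext A hA
  rw [MeasurableEquiv.map_apply, withDensity_apply _ hA,
    withDensity_apply _ (MeasurableEquiv.measurable _ hA),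
    ← Complex.volume_preserving_equiv_real_prod.symm.setLIntegral_comp_preimage_emb
      (MeasurableEquiv.measurableEmbedding _)]
  refine lintegral_congr fun p => ?_
  rw [hk_eq ht, Complex.measurableEquivRealProd_symm_apply]

theorem law (ht : 0 < t) (x : ℂ) {f : ℂ → ℝ≥0∞} (hf : Measurable f) :
    ∫⁻ ω, f (bm x ω t) ∂W = ∫⁻ y, hk t (y - x) * f y := by
  simp only [bm_add x]
  rw [← lintegral_map (f := fun a => f (x + a)) (by fun_prop) (by fun_prop), h.law0 ht,
    lintegral_withDensity_eq_lintegral_mul _ (by fun_prop) (by fun_prop),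
    ← lintegral_add_left_eq_self (fun y => hk t (y - x) * f y) x]
  simp

theorem indep_br (ht : 0 < t) : IndepFun (br t 0 0) (fun ω => bm 0 ω t) W :=
  indepFun_of_coe ((h.indep (X := fun ω u => br t 0 0 ω u) (Y := fun ω (_ : Unit) => bm 0 ω t)
    (fun c u => D c (min u t) - fr t u • D c t) (fun c _ => D c t) (fun c u ω => by
      simp only [Submodule.coe_sub, Submodule.coe_smul, Pi.sub_apply, Pi.smul_apply, D_apply,
        br_apply, smul_eq_mul]
      simp
      ring) (fun c u ω => D_apply _ _ _) fun c d u _ => by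
      simp only [map_sub, map_smul, LinearMap.sub_apply, LinearMap.smul_apply, cv_D, min_self,
        smul_eq_mul, fr, max_eq_left ht.le, max_comm (0 : ℝ),
        min_eq_left (max_le (min_le_right u t) ht.le)]
      field_simp
      ring).comp measurable_id (measurable_pi_apply ()))

theorem dis0 (ht : 0 < t) {K : Pr × ℂ → ℝ≥0∞} (hK : Measurable K) :
    ∫⁻ ω, K (br t 0 0 ω, bm 0 ω t) ∂W = ∫⁻ a, hk t a * ∫⁻ ω, K (br t 0 0 ω, a) ∂W := by
  have := h.prob
  rw [lintegral_indep (h.indep_br ht) (by fun_prop) (by fun_prop) hK, lintegral_lintegral_swap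
    (by fun_prop), h.law ht 0 (f := fun a => ∫⁻ ω, K (br t 0 0 ω, a) ∂W) (by fun_prop)]
  simp only [sub_zero]

/-- Brownian motion is a mixture of bridges -/
theorem endpt (ht : 0 < t) (x : ℂ) {F : Pr → ℝ≥0∞} (hF : Measurable F) :
    ∫⁻ ω, F (stp t (bm x ω)) ∂W = ∫⁻ y, ∫⁻ γ, F γ ∂Wb W t x y := by
  simp only [stp_bm, lintegral_Wb W _ _ _ hF, br_eq_adl t x, bm_add x]
  rw [h.dis0 ht (K := fun q => F (adl t x (x + q.2) q.1)) (by fun_prop),
    ← lintegral_add_left_eq_self
      (fun y => hk t (y - x) * ∫⁻ ω, F (adl t x y (br t 0 0 ω)) ∂W) x]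
  simp

end IsWiener

theorem lintegral_hk (ht : 0 < t) : ∫⁻ y, hk t y = 1 := by
  obtain ⟨W, h⟩ := exists_wiener
  have := h.prob
  simpa using (h.law ht 0 (f := fun _ => 1) measurable_const).symm

theorem gauss_split (hs : 0 < s) (hr : 0 < r) (x y : ℂ) {Φ : ℂ → ℝ≥0∞} (hΦ : Measurable Φ) :
    hk (s + r) (y - x) * ∫⁻ a, hk s a * ∫⁻ b, hk r b *
      Φ (x + a + (s / (s + r) : ℝ) * (y - (x + a + b))) =
    ∫⁻ z, hk s (z - x) * (hk r (y - z) * Φ z) := by
  have t0 : ((s : ℂ) + r) ≠ 0 := by exact_mod_cast (add_pos hs hr).ne'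
  obtain ⟨k, hk'⟩ : ∃ k : ℂ, k = ((s / (s + r) : ℝ) : ℂ) := ⟨_, rfl⟩
  rw [← hk']
  have k1 : ((r / (s + r) : ℝ) : ℂ) = 1 - k := by
    rw [hk']; push_cast; field_simp; ring
  have e1 : ∀ a, hk s a * ∫⁻ b, hk r b * Φ (x + a + k * (y - (x + a + b))) =
      ∫⁻ w, hk s a * (hk r (w - a) * Φ (x + a + k * (y - x - w))) := fun a => by
    rw [lintegral_const_mul _ (by fun_prop), ← lintegral_sub_right_eq_self _ a]
    congr 2 with w
    congr 2
    ring
  have e2 : ∀ w, ∫⁻ a, hk s a * (hk r (w - a) * Φ (x + a + k * (y - x - w))) =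
      ∫⁻ z, hk s (z - x - k * (y - x) + k * w) * hk r ((1 - k) * w - (z - x - k * (y - x))) * Φ z :=
    fun w => by
      rw [← lintegral_sub_right_eq_self _ (x + k * (y - x - w))]
      refine lintegral_congr fun z => ?_
      rw [mul_assoc]
      congr 3 <;> ring
  simp only [e1]
  rw [lintegral_lintegral_swap (by fun_prop)]
  simp only [e2]
  rw [lintegral_lintegral_swap (by fun_prop), ← lintegral_const_mul _ (by fun_prop)]
  refine lintegral_congr fun z => ?_
  rw [← lintegral_const_mul _ (by fun_prop)]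
  have e3 := fun w => hk_sym hs hr (y - x) w (z - x - k * (y - x))
  rw [k1, ← hk'] at e3
  simp only [fun w => (mul_assoc _ _ (Φ z)).symm.trans (congrArg (· * Φ z) (e3 w))]
  rw [lintegral_mul_const _ (by fun_prop), lintegral_mul_const _ (by fun_prop),
    lintegral_hk (add_pos hs hr), one_mul, mul_assoc]
  congr 3 <;> ring

theorem stp_br_add (hs : 0 < s) (hr : 0 < r) (x y : ℂ) (ω : Pa) :
    stp s (br (s + r) x y ω) = br s x (br (s + r) x y ω s) ω := by
  have t0 : ((s : ℂ) + r) ≠ 0 := by exact_mod_cast (add_pos hs hr).ne'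
  have s0 : (s : ℂ) ≠ 0 := by exact_mod_cast hs.ne'
  have l : s ≤ s + r := by linarith
  ext u
  simp only [stp_apply, br_apply, fr, min_assoc, min_eq_left l, max_eq_right hs.le]
  push_cast
  field_simp
  ring

theorem sft_br_add (hs : 0 < s) (hr : 0 < r) (x y : ℂ) (ω : Pa) :
    sft s (br (s + r) x y ω) = br r (br (s + r) x y ω s) y (th s ω) := by
  have t0 : ((s : ℂ) + r) ≠ 0 := by exact_mod_cast (add_pos hs hr).ne'
  have r0 : (r : ℂ) ≠ 0 := by exact_mod_cast hr.ne'
  have l : s ≤ s + r := by linarith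
  ext u
  have e : max (min u r) 0 = min (max u 0) r := by rw [max_min_distrib_right, max_eq_left hr.le]
  have e1 := bm_th hs.le x ω (min u r)
  have e2 := bm_th hs.le x ω r
  rw [bm_add, e] at e1
  rw [bm_add, max_eq_left hr.le] at e2
  simp only [sft_apply, br_apply, fr, min_eq_left l, max_eq_right hs.le, min_add_add_left,
    bm_add (_ + _), ← e1, ← e2, max_comm (0 : ℝ), e]
  rw [max_eq_left (add_nonneg hs.le (le_min (le_max_right _ _) hr.le))]
  push_cast
  field_simp
  ring

theorem br_mid (hs : 0 < s) (hr : 0 < r) (x y : ℂ) (ω : Pa) : br (s + r) x y ω s =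
    x + bm 0 ω s + (s / (s + r) : ℝ) * (y - (x + bm 0 ω s + bm 0 (th s ω) r)) := by
  have l : s ≤ s + r := by linarith
  have e2 := bm_th hs.le x ω r
  rw [bm_add, max_eq_left hr.le] at e2
  rw [br_apply, fr_of_mem hs.le l, min_eq_left l, ← e2, bm_add x]

theorem rev_br (ht : 0 < t) (x y : ℂ) (ω : Pa) : rev t (br t x y ω) = br t y x (rv t ω) := by
  have t0 : (t : ℂ) ≠ 0 := by exact_mod_cast ht.ne'
  ext u
  have e1 : (min (t - u) t).toNNReal = t.toNNReal - (min u t).toNNReal := NNReal.eq (by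
    simp only [NNReal.coe_sub_def, Real.coe_toNNReal', max_def, min_def]
    split_ifs <;> linarith)
  have e2 : max 0 (min (t - u) t) = t - max 0 (min u t) := by
    simp only [max_def, min_def]
    split_ifs <;> linarith
  simp only [rev_apply, br_apply, bm_apply, rv_apply, fr, e1, e2, tsub_zero, tsub_self, max_self,
    max_eq_right (Real.toNNReal_le_toNNReal (min_le_right u t)), max_eq_right zero_le]
  push_cast
  field_simp
  ring

namespace IsWiener

variable (h : IsWiener W)
include h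

/-- **Splitting of bridges.** -/
theorem split (hs : 0 < s) (hr : 0 < r) (x y : ℂ) {H : Pr × Pr → ℝ≥0∞} (hH : Measurable H) :
    ∫⁻ γ, H (stp s γ, sft s γ) ∂Wb W (s + r) x y =
      ∫⁻ z, ∫⁻ γ, ∫⁻ γ', H (γ, γ') ∂Wb W r z y ∂Wb W s x z := by
  have := h.prob
  let Z : ℂ → ℂ → ℂ := fun a b => x + a + (s / (s + r) : ℝ) * (y - (x + a + b))
  let K : (Pr × ℂ) × Pr × ℂ → ℝ≥0∞ := fun q =>
    H (adl s x (Z q.1.2 q.2.2) q.1.1, adl r (Z q.1.2 q.2.2) y q.2.1)
  have hK : Measurable K := by fun_prop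
  let cen : Pr → Pr := fun γ => adl s 0 (-γ s) γ
  have e0 : ∀ ω, cen (stp s (bm 0 ω)) = br s 0 0 ω := fun ω => by
    ext u
    simp [cen, adl_apply, br_apply]
  have e1 : ∀ ω, H (stp s (br (s + r) x y ω), sft s (br (s + r) x y ω)) =
      K ((cen (stp s (bm 0 ω)), stp s (bm 0 ω) s), br r 0 0 (th s ω), bm 0 (th s ω) r) :=
    fun ω => by
      rw [stp_br_add hs hr, sft_br_add hs hr, br_mid hs hr, e0, br_eq_adl s, br_eq_adl r]
      simp only [K, Z, stp_apply, min_self]
  rw [lintegral_Wb _ _ _ _ (by fun_prop)]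
  simp only [e1]
  rw [h.markov0 hs.le (H := fun q => K ((cen q.1, q.1 s), br r 0 0 q.2, bm 0 q.2 r))
    (by fun_prop)]
  simp only [e0, stp_apply, min_self]
  rw [h.dis0 hs (K := fun p => ∫⁻ ω', K (p, br r 0 0 ω', bm 0 ω' r) ∂W) (by fun_prop)]
  have e2 : ∀ a, ∫⁻ ω, ∫⁻ ω', K ((br s 0 0 ω, a), br r 0 0 ω', bm 0 ω' r) ∂W ∂W =
      ∫⁻ b, hk r b * ∫⁻ ω, ∫⁻ ω', H (br s x (Z a b) ω, br r (Z a b) y ω') ∂W ∂W := fun a => by
    simp only [fun ω => h.dis0 hr (K := fun p => K ((br s 0 0 ω, a), p)) (by fun_prop)]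
    rw [lintegral_lintegral_swap (by fun_prop)]
    refine lintegral_congr fun b => ?_
    rw [lintegral_const_mul _ (by fun_prop)]
    simp only [K, ← br_eq_adl]
  simp only [e2]
  refine (gauss_split hs hr x y (Φ := fun z => ∫⁻ ω, ∫⁻ ω', H (br s x z ω, br r z y ω') ∂W ∂W)
    (by fun_prop)).trans (lintegral_congr fun z => ?_)
  rw [lintegral_Wb _ _ _ _ (hH.lintegral_prod_right'), ← lintegral_const_mul _ (by fun_prop)]
  simp only [fun γ => lintegral_Wb W r z y (F := fun γ' => H (γ, γ')) (by fun_prop)]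

theorem Wb_univ (t : ℝ) (x y : ℂ) : Wb W t x y univ = hk t (y - x) := by
  have := h.prob
  simpa using lintegral_Wb W t x y (F := fun _ => 1) measurable_const

/-- the bridge before its end is absolutely continuous with respect to Brownian motion -/
theorem ac (hs : 0 < s) (hr : 0 < r) (x y : ℂ) {F : Pr → ℝ≥0∞} (hF : Measurable F) :
    ∫⁻ γ, F (stp s γ) ∂Wb W (s + r) x y =
      ∫⁻ ω, F (stp s (bm x ω)) * hk r (y - bm x ω s) ∂W := by
  have := h.endpt hs x (F := fun γ => F γ * hk r (y - γ s)) (by fun_prop)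
  simp only [stp_apply, min_self] at this
  rw [this, h.split hs hr x y (H := fun q => F q.1) (by fun_prop)]
  refine lintegral_congr fun z => ?_
  simp only [lintegral_const, h.Wb_univ]
  rw [lintegral_Wb _ _ _ _ (by fun_prop), lintegral_Wb _ _ _ _ (by fun_prop)]
  simp only [br_of_ge hs le_rfl]

theorem rev_map (ht : 0 < t) (x y : ℂ) : (Wb W t x y).map (rev t) = Wb W t y x := by
  rw [Wb, Wb, Measure.map_smul, Measure.map_map (by fun_prop) (by fun_prop), hk_comm]
  conv_rhs => rw [← h.rv_map t, Measure.map_map (by fun_prop) (by fun_prop)]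
  congr 2
  exact funext (rev_br ht x y)

end IsWiener

end

end Vale.Agent.P155.BL
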