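import Vale.Agent.P155B.Defs

/-!
# P155: paths indexed by real times, bridges between two points (working definitions)
-/

namespace Vale.Agent.P155.BL

open MeasureTheory ProbabilityTheory Set Vale.Agent.P155.Q1
open scoped NNReal ENNReal

noncomputable section

/-- the canonical space of Brownian motion -/
abbrev Pa : Type := C(ℝ≥0, ℂ)
/-- paths indexed by real times -/
abbrev Pr : Type := C(ℝ, ℂ)
/-- parametrised loops -/
abbrev CL : Type := C(S1, ℂ)

/-- Brownian motion started at `x` (constant at negative times) -/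
def bm (x : ℂ) (ω : Pa) : Pr := ⟨fun s => x + (ω s.toNNReal - ω 0), by fun_prop⟩
/-- the path stopped at `t` -/
def stp (t : ℝ) (γ : Pr) : Pr := ⟨fun s => γ (min s t), by fun_prop⟩
/-- the path after `t` -/
def sft (t : ℝ) (γ : Pr) : Pr := ⟨fun s => γ (t + max s 0), by fun_prop⟩
/-- the path on `[0, t]` reversed -/
def rev (t : ℝ) (γ : Pr) : Pr := ⟨fun s => γ (t - s), by fun_prop⟩
/-- the part of `[0, t]` which has elapsed at time `s` -/
def fr (t s : ℝ) : ℝ := max 0 (min s t) / t
/-- the bridge of duration `t` from `x` to `y` (equal to `x` before `0`, to `y` after `t`) -/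
def br (t : ℝ) (x y : ℂ) (ω : Pa) : Pr :=
  ⟨fun s => bm x ω (min s t) + fr t s * (y - bm x ω t), by unfold fr; fun_prop⟩
/-- the heat kernel -/
def hk (t : ℝ) (z : ℂ) : ℝ≥0∞ :=
  ENNReal.ofReal ((2 * Real.pi * t)⁻¹ * Real.exp (-‖z‖ ^ 2 / (2 * t)))
/-- the bridge measure, of total mass `hk t (y - x)` -/
def Wb (W : Measure Pa) (t : ℝ) (x y : ℂ) : Measure Pr := hk t (y - x) • W.map (br t x y)
/-- a loop of duration `t` as a path -/
def unr (t : ℝ) (γ : CL) : Pr := ⟨fun s => γ (fr t s : ℝ), by unfold fr; fun_prop⟩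
/-- change of the root -/
def rot (a : S1) (γ : CL) : CL := ⟨fun s => γ (s + a), by fun_prop⟩

end

end Vale.Agent.P155.BL
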