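import Vale.Agent.P155.H878.Loops

/-!
# P155: planar Brownian motion, Brownian bridges, the Brownian loop measure (definitions)
-/

namespace Vale.Agent.P155.BL

open MeasureTheory ProbabilityTheory Set Vale.Agent.P155.Q1
open scoped NNReal ENNReal

noncomputable section

/-- Borel sets of spaces of continuous plane valued functions. -/
instance instMS {X : Type} [TopologicalSpace X] : MeasurableSpace C(X, ℂ) := borel _

instance {X : Type} [TopologicalSpace X] : BorelSpace C(X, ℂ) := ⟨rfl⟩

/-- `W` is the law of planar Brownian motion: the two coordinates are independent Brownian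
motions. -/
structure IsWiener (W : Measure C(ℝ≥0, ℂ)) : Prop where
  re : IsBrownianReal (fun t ω => (ω t).re) W
  im : IsBrownianReal (fun t ω => (ω t).im) W
  ind : IndepFun (fun (ω : C(ℝ≥0, ℂ)) t => (ω t).re) (fun (ω : C(ℝ≥0, ℂ)) t => (ω t).im) W

/-- The bridge of duration `t` from `z` to `z` at the time `s t`, `0 ≤ s ≤ 1`. -/
def brl (z : ℂ) (t : ℝ) (ω : C(ℝ≥0, ℂ)) (s : ℝ) : ℂ :=
  z + (ω (s * t).toNNReal - ω 0) - s * (ω t.toNNReal - ω 0)

/-- The bridge of duration `t` from `z` to `z`, as a loop. -/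
def loopOf (z : ℂ) (t : ℝ) (ω : C(ℝ≥0, ℂ)) : C(S1, ℂ) :=
  ⟨AddCircle.liftIco 1 0 (brl z t ω), AddCircle.liftIco_continuous (by simp [brl])
    (Continuous.continuousOn (by unfold brl; fun_prop))⟩

/-- The Brownian loop measure `dA(z) dt / (2 π t²) × (law of the bridge of duration t from z to
z)`, on pairs (duration, loop). -/
def loopT (W : Measure C(ℝ≥0, ℂ)) : Measure (ℝ × C(S1, ℂ)) :=
  (((volume : Measure ℂ).prod ((volume.restrict (Ioi 0)).withDensity
    fun t : ℝ => ENNReal.ofReal (1 / (2 * Real.pi * t ^ 2)))).prod W).map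
      fun q => (q.1.2, loopOf q.1.1 q.1.2 q.2)

/-- The Brownian loop measure. -/
def loopM (W : Measure C(ℝ≥0, ℂ)) : Measure C(S1, ℂ) := (loopT W).map Prod.snd

end

end Vale.Agent.P155.BL
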