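import Vale.Agent.P155B.Br

/-!
# P155: the Brownian loop measure: formulas, invariance under the change of the root
-/

set_option linter.all false

namespace Vale.Agent.P155.BL

open MeasureTheory ProbabilityTheory Set Vale.Agent.P155.Q1
open scoped NNReal ENNReal ComplexConjugate

noncomputable section

variable {W : Measure Pa} {a r s t : ℝ} {x y z : ℂ}

theorem unr_loopOf (ht : 0 < t) (z : ℂ) (ω : Pa) : unr t (loopOf z t ω) = br t z z ω := by
  ext s
  rw [unr_apply, loopOf_coe _ _ _ (fr_mem ht s), brl, br_apply, bm_apply, bm_apply,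
    show (fr t s * t).toNNReal = (min s t).toNNReal from NNReal.eq (by
      simp [fr, div_mul_cancel₀ _ ht.ne', max_comm])]
  ring

theorem range_unr (ht : 0 < t) (γ : CL) : range (unr t γ) = range γ := by
  refine subset_antisymm (range_subset_iff.2 fun s => ⟨_, rfl⟩) (range_subset_iff.2 fun s => ?_)
  obtain ⟨r, hr, rfl⟩ := exists_coe s
  refine ⟨r * t, ?_⟩
  rw [unr_apply, fr_of_mem (mul_nonneg hr.1 ht.le) (mul_le_of_le_one_left ht.le hr.2.le),
    mul_div_cancel_right₀ _ ht.ne']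

theorem range_loopOf (ht : 0 < t) (z : ℂ) (ω : Pa) : range (loopOf z t ω) = range (br t z z ω) := by
  rw [← unr_loopOf ht, range_unr ht]

theorem range_rot (a : S1) (γ : CL) : range (rot a γ) = range γ :=
  (add_right_surjective a).range_comp γ

theorem loopOf_zero (z : ℂ) (t : ℝ) (ω : Pa) : loopOf z t ω 0 = z := by
  simpa [brl] using loopOf_coe z t ω (s := 0) (by simp)

theorem loopOf_add (z : ℂ) (t : ℝ) (ω : Pa) (s : S1) : loopOf z t ω s = z + loopOf 0 t ω s := by
  obtain ⟨r, hr, rfl⟩ := exists_coe s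
  simp only [loopOf_coe _ _ _ (Ico_subset_Icc_self hr), brl]
  ring

theorem lintegral_loopT [SFinite W] {F : ℝ × CL → ℝ≥0∞} (hF : Measurable F) :
    ∫⁻ q, F q ∂loopT W = ∫⁻ z, ∫⁻ t in Ioi 0, ENNReal.ofReal (1 / (2 * Real.pi * t ^ 2)) *
      ∫⁻ ω, F (t, loopOf z t ω) ∂W := by
  rw [loopT, lintegral_map hF (by fun_prop), lintegral_prod _ (by fun_prop),
    lintegral_prod _ (by fun_prop)]
  refine lintegral_congr fun z => ?_
  rw [lintegral_withDensity_eq_lintegral_mul _ (by fun_prop) (by fun_prop)]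
  rfl

theorem dens_eq (ht : 0 < t) :
    ENNReal.ofReal (1 / (2 * Real.pi * t ^ 2)) = ENNReal.ofReal t⁻¹ * hk t 0 := by
  rw [hk_zero, ← ENNReal.ofReal_mul (by positivity)]
  congr 1
  field_simp

theorem lintegral_unr [SFinite W] {F : ℝ × Pr → ℝ≥0∞} (hF : Measurable F) :
    ∫⁻ q, F (q.1, unr q.1 q.2) ∂loopT W =
      ∫⁻ z, ∫⁻ t in Ioi 0, ENNReal.ofReal t⁻¹ * ∫⁻ γ, F (t, γ) ∂Wb W t z z := by
  rw [lintegral_loopT (by fun_prop)]
  refine lintegral_congr fun z => setLIntegral_congr_fun measurableSet_Ioi fun t ht => ?_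
  simp only [unr_loopOf ht]
  rw [lintegral_Wb _ _ _ _ (by fun_prop), dens_eq ht, sub_self, mul_assoc]

theorem lintegral_loopM {F : CL → ℝ≥0∞} (hF : Measurable F) :
    ∫⁻ γ, F γ ∂loopM W = ∫⁻ q, F q.2 ∂loopT W := lintegral_map hF measurable_snd

theorem loopM_apply {A : Set CL} (hA : MeasurableSet A) : loopM W A = loopT W {q | q.2 ∈ A} :=
  Measure.map_apply measurable_snd hA

instance [SFinite W] : SFinite (loopT W) := by unfold loopT; infer_instance

instance [SFinite W] : SFinite (loopM W) := by unfold loopM; infer_instance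

theorem ae_pos [SFinite W] : ∀ᵐ q ∂loopT W, 0 < q.1 := by
  have m : MeasurableSet {q : ℝ × CL | ¬ 0 < q.1} :=
    (measurableSet_lt measurable_const measurable_fst).compl
  rw [ae_iff, ← lintegral_indicator_one m, lintegral_loopT (measurable_one.indicator m)]
  refine (lintegral_congr fun z => ?_).trans lintegral_zero
  refine (setLIntegral_congr_fun measurableSet_Ioi fun t ht => ?_).trans lintegral_zero
  simp [indicator, (mem_Ioi.1 ht).not_ge]

/-- properties which hold for almost all bridges hold for almost all loops -/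
theorem ae_loopT [SFinite W] {p : ℝ × CL → Prop} (hp : MeasurableSet {q | p q})
    (h : ∀ᵐ z, ∀ t, 0 < t → ∀ᵐ ω ∂W, p (t, loopOf z t ω)) : ∀ᵐ q ∂loopT W, p q := by
  have hp' : MeasurableSet {q | ¬ p q} := hp.compl
  rw [ae_iff, ← lintegral_indicator_one hp', lintegral_loopT (measurable_one.indicator hp')]
  refine (lintegral_congr_ae (h.mono fun z hz => ?_)).trans lintegral_zero
  refine (setLIntegral_congr_fun measurableSet_Ioi fun t ht => ?_).trans lintegral_zero
  refine mul_eq_zero.2 (.inr ((lintegral_congr_ae ((hz t ht).mono fun ω hω => ?_)).trans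
    lintegral_zero))
  exact indicator_of_notMem (not_not.2 hω) _

theorem occ_unr (ht : 0 < t) (γ : CL) {u : ℂ → ℝ≥0∞} (hu : Measurable u) :
    ∫⁻ s in Ioc 0 t, u (unr t γ s) = ENNReal.ofReal t * ∫⁻ a : S1, u (γ a) := by
  have m : Measurable fun a : ℝ => u (γ a) := by fun_prop
  have e := Real.map_volume_mul_left (inv_ne_zero ht.ne')
  rw [inv_inv, abs_of_pos ht] at e
  rw [← UnitAddCircle.lintegral_preimage 0, zero_add, ← lintegral_indicator measurableSet_Ioc,
    ← lintegral_indicator measurableSet_Ioc, ← smul_eq_mul, ← lintegral_smul_measure, ← e,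
    lintegral_map (m.indicator measurableSet_Ioc) (by fun_prop)]
  refine lintegral_congr fun s => ?_
  have : t⁻¹ * s ∈ Ioc (0 : ℝ) 1 ↔ s ∈ Ioc 0 t := by
    rw [mem_Ioc, mem_Ioc, inv_mul_le_iff₀ ht, mul_one, mul_pos_iff_of_pos_left (inv_pos.2 ht)]
  by_cases hs : s ∈ Ioc 0 t
  · rw [indicator_of_mem hs, indicator_of_mem (this.2 hs), unr_apply, fr_of_mem hs.1.le hs.2,
      div_eq_inv_mul]
  · rw [indicator_of_notMem hs, indicator_of_notMem (this.not.2 hs)]

/-! ### cyclic shifts -/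

/-- the increments on `[0, s]` and on `[s, s + r]` are exchanged -/
def cyc (s r : ℝ≥0) (ω : Pa) : Pa := ⟨fun u => ω (s + min u r) - ω s + (ω (0 + min (u - r) s) - ω 0) +
  (ω (s + r + (u - (s + r))) - ω (s + r)), by fun_prop⟩

theorem cyc_apply (s r : ℝ≥0) (ω : Pa) (u : ℝ≥0) : cyc s r ω u = ω (s + min u r) - ω s +
    (ω (0 + min (u - r) s) - ω 0) + (ω (s + r + (u - (s + r))) - ω (s + r)) := rfl

theorem measurable_cyc (s r : ℝ≥0) : Measurable (cyc s r) :=
  measurable_of_ev fun s => by simp only [cyc_apply]; fun_prop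

theorem cyc_min {u v s r : ℝ} (hs : 0 ≤ s) : min (min u r) (min v r) +
    min (min (max (u - r) 0) s) (min (max (v - r) 0) s) +
    min (max (u - (s + r)) 0) (max (v - (s + r)) 0) = min u v := by
  rw [← inf_inf_distrib_right, ← inf_inf_distrib_right, ← max_min_distrib_right,
    ← max_min_distrib_right, min_sub_sub_right, min_sub_sub_right]
  generalize min u v = m
  simp only [max_def, min_def]
  split_ifs <;> linarith

theorem rot_loopOf (ht : 0 < t) (ha : a ∈ Ico (0 : ℝ) 1) (z : ℂ) (ω : Pa) :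
    rot a (loopOf z t ω) = loopOf (z + brl 0 t ω a) t
      (cyc (a * t).toNNReal ((1 - a) * t).toNNReal ω) := by
  have p1 : 0 ≤ a * t := mul_nonneg ha.1 ht.le
  have p2 : 0 ≤ (1 - a) * t := mul_nonneg (sub_nonneg.2 ha.2.le) ht.le
  have e0 : (a * t).toNNReal + ((1 - a) * t).toNNReal = t.toNNReal := by
    rw [← Real.toNNReal_add p1 p2]
    congr 1
    ring
  have l1 : ((1 - a) * t).toNNReal ≤ t.toNNReal := e0 ▸ le_add_self
  have e1 : t.toNNReal - ((1 - a) * t).toNNReal = (a * t).toNNReal := by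
    rw [← e0, add_tsub_cancel_right]
  ext u
  obtain ⟨u, hu, rfl⟩ := exists_coe u
  have p3 : 0 ≤ u * t := mul_nonneg hu.1 ht.le
  have l2 : (u * t).toNNReal ≤ t.toNNReal :=
    Real.toNNReal_le_toNNReal (mul_le_of_le_one_left ht.le hu.2.le)
  rw [rot_apply, ← AddCircle.coe_add, loopOf_coe _ _ _ (Ico_subset_Icc_self hu)]
  simp only [brl, cyc_apply, e0, tsub_eq_zero_of_le l2, tsub_self, zero_tsub, min_eq_left zero_le,
    min_eq_right l1, e1, min_self, add_zero, zero_add, sub_self]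
  rcases le_total (u + a) 1 with h | h
  · have l3 : (u * t).toNNReal ≤ ((1 - a) * t).toNNReal :=
      Real.toNNReal_le_toNNReal (mul_le_mul_of_nonneg_right (by linarith) ht.le)
    rw [loopOf_coe _ _ _ ⟨add_nonneg hu.1 ha.1, h⟩, brl, min_eq_left l3, tsub_eq_zero_of_le l3,
      min_eq_left zero_le, ← Real.toNNReal_add p1 p3, show a * t + u * t = (u + a) * t by ring]
    push_cast
    ring
  · have l3 : ((1 - a) * t).toNNReal ≤ (u * t).toNNReal :=
      Real.toNNReal_le_toNNReal (mul_le_mul_of_nonneg_right (by linarith) ht.le)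
    have e2 : (u * t).toNNReal - ((1 - a) * t).toNNReal = ((u + a - 1) * t).toNNReal := by
      refine tsub_eq_of_eq_add ?_
      rw [← Real.toNNReal_add (mul_nonneg (sub_nonneg.2 h) ht.le) p2]
      congr 1
      ring
    rw [show ((u + a : ℝ) : S1) = (u + a - 1 : ℝ) by
        rw [AddCircle.coe_sub, AddCircle.coe_period, sub_zero],
      loopOf_coe _ _ _ ⟨sub_nonneg.2 h, by linarith [hu.2, ha.2]⟩, brl, min_eq_right l3, e0, e2,
      min_eq_left (Real.toNNReal_le_toNNReal
        (mul_le_mul_of_nonneg_right (by linarith [hu.2]) ht.le))]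
    push_cast
    ring

namespace IsWiener

variable (h : IsWiener W)
include h

theorem cv_same (c d : ℂ) (a x y : ℝ≥0) :
    h.cv (E c (a + x) - E c a) (E d (a + y) - E d a) = (c * conj d).re * min (x : ℝ) y := by
  simp only [map_sub, LinearMap.sub_apply, cv_E, NNReal.coe_add, min_add_add_left,
    min_self, min_eq_left (le_add_of_nonneg_right (NNReal.coe_nonneg _)),
    min_eq_right (le_add_of_nonneg_right (NNReal.coe_nonneg _))]
  ring

theorem cv_disj (c d : ℂ) {a x b : ℝ≥0} (y : ℝ≥0) (e : a + x ≤ b) :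
    h.cv (E c (a + x) - E c a) (E d (b + y) - E d b) = 0 := by
  have e1 : ((a + x : ℝ≥0) : ℝ) ≤ b := e
  have e2 : (b : ℝ) ≤ (b + y : ℝ≥0) := NNReal.coe_le_coe.2 le_self_add
  have e3 : (a : ℝ) ≤ (a + x : ℝ≥0) := NNReal.coe_le_coe.2 le_self_add
  simp only [map_sub, LinearMap.sub_apply, cv_E, min_eq_left e1, min_eq_left (e1.trans e2),
    min_eq_left (e3.trans e1), min_eq_left ((e3.trans e1).trans e2)]
  ring

theorem cv_disj' (c d : ℂ) {a x b : ℝ≥0} (y : ℝ≥0) (e : a + x ≤ b) :
    h.cv (E d (b + y) - E d b) (E c (a + x) - E c a) = 0 := by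
  rw [cv_eq, covariance_comm, ← h.cv_eq, h.cv_disj c d y e]

theorem cyc_map (s r : ℝ≥0) : W.map (cyc s r) = W :=
  h.map_eq (measurable_cyc s r) (fun c u => E c (s + min u r) - E c s +
    (E c (0 + min (u - r) s) - E c 0) + (E c (s + r + (u - (s + r))) - E c (s + r)))
    (fun c u ω => by simp [cyc_apply, mul_sub, mul_add]) fun c d u v => by
      have a1 : ∀ u, 0 + min (u - r) s ≤ s := fun u => by simp
      have a2 : ∀ u, s + min u r ≤ s + r := fun u => by simp
      simp only [map_add, LinearMap.add_apply, cv_same, h.cv_disj _ _ _ (a1 _),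
        h.cv_disj' _ _ _ (a1 _), h.cv_disj _ _ _ (a2 _), h.cv_disj' _ _ _ (a2 _),
        h.cv_disj _ _ _ ((a1 _).trans le_self_add), h.cv_disj' _ _ _ ((a1 _).trans le_self_add),
        NNReal.coe_min, NNReal.coe_sub_def, NNReal.coe_add]
      rw [← cyc_min (u := u) (v := v) (r := r) s.coe_nonneg]
      ring

theorem rot_fix (ht : 0 < t) (a : S1) {F : CL → ℝ≥0∞} (hF : Measurable F) :
    ∫⁻ z, ∫⁻ ω, F (rot a (loopOf z t ω)) ∂W = ∫⁻ z, ∫⁻ ω, F (loopOf z t ω) ∂W := by
  have := h.prob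
  obtain ⟨a, ha, rfl⟩ := exists_coe a
  rw [lintegral_lintegral_swap (by fun_prop), lintegral_lintegral_swap (μ := volume) (by fun_prop)]
  have e : ∀ (ω : Pa) b, ∫⁻ z, F (loopOf (z + b) t ω) = ∫⁻ z, F (loopOf z t ω) :=
    fun ω b => lintegral_add_right_eq_self (fun z => F (loopOf z t ω)) b
  simp only [rot_loopOf ht ha, e]
  rw [← lintegral_map (f := fun ω => ∫⁻ z, F (loopOf z t ω)) (by fun_prop) (measurable_cyc _ _),
    h.cyc_map]

theorem lintegral_rot (a : S1) {F : ℝ × CL → ℝ≥0∞} (hF : Measurable F) :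
    ∫⁻ q, F (q.1, rot a q.2) ∂loopT W = ∫⁻ q, F q ∂loopT W := by
  have := h.prob
  rw [lintegral_loopT (by fun_prop), lintegral_loopT hF, lintegral_lintegral_swap (by fun_prop),
    lintegral_lintegral_swap (μ := volume) (by fun_prop)]
  refine setLIntegral_congr_fun measurableSet_Ioi fun t ht => ?_
  simp only []
  rw [lintegral_const_mul _ (by fun_prop), lintegral_const_mul _ (by fun_prop),
    h.rot_fix ht a (F := fun γ => F (t, γ)) (by fun_prop)]

/-- **The loop measure is invariant under the change of the root.** -/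
theorem rot_map (a : S1) : (loopT W).map (fun q => (q.1, rot a q.2)) = loopT W := by
  ext A hA
  rw [← lintegral_indicator_one hA, ← lintegral_indicator_one hA,
    lintegral_map (measurable_one.indicator hA) (by fun_prop),
    h.lintegral_rot a (measurable_one.indicator hA)]

/-- **Rerooting.** -/
theorem reroot {u : ℂ → ℝ≥0∞} (hu : Measurable u) {Φ : ℝ × CL → ℝ≥0∞} (hΦ : Measurable Φ)
    (inv : ∀ a t γ, Φ (t, rot a γ) = Φ (t, γ)) :
    ∫⁻ q, (ENNReal.ofReal q.1 * ∫⁻ a : S1, u (q.2 a)) * Φ q ∂loopT W =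
      ∫⁻ z, u z * ∫⁻ t in Ioi 0, hk t 0 * ∫⁻ ω, Φ (t, loopOf z t ω) ∂W := by
  have := h.prob
  have e : ∀ q : ℝ × CL, (ENNReal.ofReal q.1 * ∫⁻ a : S1, u (q.2 a)) * Φ q =
      ∫⁻ a : S1, ENNReal.ofReal q.1 * u (rot a q.2 0) * Φ (q.1, rot a q.2) := fun q => by
    simp only [inv, rot_apply, zero_add]
    rw [lintegral_mul_const _ (by fun_prop), lintegral_const_mul _ (by fun_prop)]
  simp only [e]
  rw [lintegral_lintegral_swap (by fun_prop)]
  simp only [fun a => h.lintegral_rot a (F := fun q => ENNReal.ofReal q.1 * u (q.2 0) * Φ q)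
    (by fun_prop)]
  rw [lintegral_const, UnitAddCircle.measure_univ, mul_one, lintegral_loopT (by fun_prop)]
  refine lintegral_congr fun z => ?_
  rw [← lintegral_const_mul _ (by fun_prop)]
  refine setLIntegral_congr_fun measurableSet_Ioi fun t ht => ?_
  simp only [loopOf_zero]
  rw [lintegral_const_mul _ (by fun_prop), dens_eq ht, ENNReal.ofReal_inv_of_pos ht]
  have := ENNReal.inv_mul_cancel (ENNReal.ofReal_pos.2 ht).ne' ENNReal.ofReal_ne_top
  calc _ = (ENNReal.ofReal t)⁻¹ * ENNReal.ofReal t *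
      (u z * (hk t 0 * ∫⁻ ω, Φ (t, loopOf z t ω) ∂W)) := by ring
    _ = _ := by rw [this, one_mul]

/-- Rerooting, in terms of paths. -/
theorem reroot_unr {u : ℂ → ℝ≥0∞} (hu : Measurable u) {Ψ : ℝ × Pr → ℝ≥0∞} (hΨ : Measurable Ψ)
    (inv : ∀ a t γ, 0 < t → Ψ (t, unr t (rot a γ)) = Ψ (t, unr t γ)) :
    ∫⁻ q, (∫⁻ s in Ioc 0 q.1, u (unr q.1 q.2 s)) * Ψ (q.1, unr q.1 q.2) ∂loopT W =
      ∫⁻ z, u z * ∫⁻ t in Ioi 0, ∫⁻ γ, Ψ (t, γ) ∂Wb W t z z := by
  have := h.prob
  have m : MeasurableSet {q : ℝ × CL | 0 < q.1} := measurableSet_lt measurable_const measurable_fst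
  have k := h.reroot hu (Φ := {q : ℝ × CL | 0 < q.1}.indicator fun q => Ψ (q.1, unr q.1 q.2))
    (Measurable.indicator (by fun_prop) m) fun a t γ => by
      by_cases ht : 0 < t <;> simp [indicator, ht, inv]
  refine (lintegral_congr_ae (ae_pos.mono fun q hq => ?_)).trans (k.trans (lintegral_congr fun z =>
    congrArg _ (setLIntegral_congr_fun measurableSet_Ioi fun t ht => ?_)))
  · beta_reduce
    rw [occ_unr hq _ hu, indicator_of_mem (show q ∈ {q : ℝ × CL | 0 < q.1} from hq)]
  · beta_reduce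
    rw [lintegral_Wb _ _ _ _ (by fun_prop), sub_self]
    simp [indicator, mem_Ioi.1 ht, unr_loopOf ht]

end IsWiener

end

end Vale.Agent.P155.BL
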