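import Vale.Agent.P155B.Def2

/-!
# P155: measurability on spaces of paths
-/

set_option linter.all false

namespace Vale.Agent.P155.BL

open MeasureTheory ProbabilityTheory Set Vale.Agent.P155.Q1 Metric
open scoped NNReal ENNReal

noncomputable section

section gen

variable {X : Type} [TopologicalSpace X] {α : Type*} [MeasurableSpace α]

theorem measurable_ev (x : X) : Measurable fun f : C(X, ℂ) => f x :=
  (continuous_eval_const x).measurable

theorem measurable_coe : Measurable fun (f : C(X, ℂ)) (x : X) => f x :=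
  measurable_pi_lambda _ measurable_ev

variable [SecondCountableTopology X]

theorem mapsTo_open_eq {K : Set X} (hK : IsCompact K) {U : Set ℂ} (hU : IsOpen U) :
    ∃ D : Set X, D.Countable ∧ {f : C(X, ℂ) | MapsTo f K U}ᶜ =
      ⋂ n : ℕ, ⋃ q ∈ D, {f | f q ∈ thickening (1 / (n + 1)) Uᶜ} := by
  obtain ⟨D, hD, hd⟩ := TopologicalSpace.exists_countable_dense K
  refine ⟨Subtype.val '' D, hD.image _, Set.ext fun f => ⟨fun h => ?_, fun h h' => ?_⟩⟩
  · obtain ⟨x, hx, hx'⟩ : ∃ x ∈ K, f x ∉ U := by simpa [MapsTo] using h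
    refine mem_iInter.2 fun n => ?_
    obtain ⟨q, q1, q2⟩ := hd.exists_mem_open (U := (fun y : K => f y) ⁻¹'
      thickening (1 / (n + 1)) Uᶜ) (isOpen_thickening.preimage (by fun_prop))
      ⟨⟨x, hx⟩, self_subset_thickening (by positivity) _ hx'⟩
    exact mem_biUnion (mem_image_of_mem _ q1) q2
  · obtain ⟨δ, δ0, hδ⟩ := (hK.image f.continuous).exists_thickening_subset_open hU h'.image_subset
    obtain ⟨n, hn⟩ := exists_nat_one_div_lt δ0
    obtain ⟨_, ⟨q, -, rfl⟩, h2⟩ := mem_iUnion₂.1 (mem_iInter.1 h n)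
    obtain ⟨z, z1, z2⟩ := mem_thickening_iff.1 h2
    exact z1 (hδ (mem_thickening_iff.2 ⟨_, mem_image_of_mem _ q.2, by
      rw [dist_comm]; exact z2.trans hn⟩))

variable [LocallyCompactSpace X]

theorem ms_eq : (instMS : MeasurableSpace C(X, ℂ)) =
    MeasurableSpace.comap (fun (f : C(X, ℂ)) (x : X) => f x) inferInstance := by
  refine le_antisymm ?_ measurable_coe.comap_le
  rw [instMS, borel_eq_generateFrom_of_subbasis ContinuousMap.compactOpen_eq]
  refine MeasurableSpace.generateFrom_le ?_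
  rintro _ ⟨K, hK, U, hU, rfl⟩
  obtain ⟨D, hD, e⟩ := mapsTo_open_eq hK hU
  refine MeasurableSet.of_compl (e ▸ MeasurableSet.iInter fun n => MeasurableSet.biUnion hD
    fun q _ => ⟨{g | g q ∈ thickening (1 / (n + 1)) Uᶜ},
      measurable_pi_apply q isOpen_thickening.measurableSet, rfl⟩)

theorem measurable_of_ev {f : α → C(X, ℂ)} (h : ∀ x, Measurable fun a => f a x) :
    Measurable f := by
  rw [ms_eq, measurable_comap_iff]
  exact measurable_pi_lambda _ h

theorem ext_coe {μ ν : Measure C(X, ℂ)} (h : μ.map (fun f x => f x) = ν.map fun f x => f x) :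
    μ = ν := by
  ext s hs
  rw [ms_eq] at hs
  obtain ⟨t, ht, rfl⟩ := hs
  rw [← Measure.map_apply measurable_coe ht, h, Measure.map_apply measurable_coe ht]

theorem indepFun_of_coe {β : Type*} [MeasurableSpace β] {P : Measure α} {f : α → C(X, ℂ)}
    {g : α → β} (h : IndepFun (fun a x => f a x) g P) : IndepFun f g P := by
  rw [IndepFun_iff_Indep] at h ⊢
  rwa [ms_eq, MeasurableSpace.comap_comp]

variable [MeasurableSpace X] [OpensMeasurableSpace X]

theorem measurable_ev2 : Measurable fun q : C(X, ℂ) × X => q.1 q.2 := continuous_eval.measurable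

@[fun_prop] theorem measurable_app {f : α → C(X, ℂ)} {g : α → X} (hf : Measurable f)
    (hg : Measurable g) : Measurable fun a => f a (g a) := measurable_ev2.comp (hf.prodMk hg)

end gen

section sets

variable {X : Type} [TopologicalSpace X] {U : Set ℂ} {K : Set X}

theorem measurableSet_mapsTo_open (hK : IsCompact K) (hU : IsOpen U) :
    MeasurableSet {γ : C(X, ℂ) | MapsTo γ K U} :=
  (ContinuousMap.isOpen_setOf_mapsTo hK hU).measurableSet

theorem measurableSet_mapsTo_closed (K : Set X) (hU : IsClosed U) :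
    MeasurableSet {γ : C(X, ℂ) | MapsTo γ K U} :=
  (ContinuousMap.isClosed_setOf_mapsTo hU K).measurableSet

theorem measurableSet_range_closed (hU : IsClosed U) :
    MeasurableSet {γ : C(X, ℂ) | range γ ⊆ U} := by
  simpa only [mapsTo_univ_iff_range_subset] using measurableSet_mapsTo_closed (X := X) univ hU

theorem measurableSet_range_open [SigmaCompactSpace X] (hU : IsOpen U) :
    MeasurableSet {γ : C(X, ℂ) | range γ ⊆ U} := by
  have : {γ : C(X, ℂ) | range γ ⊆ U} =
      ⋂ n, {γ : C(X, ℂ) | MapsTo γ (compactCovering X n) U} := by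
    ext γ
    simp only [mem_setOf_eq, mem_iInter, ← mapsTo_iUnion, iUnion_compactCovering,
      mapsTo_univ_iff_range_subset]
  exact this ▸ MeasurableSet.iInter fun n =>
    measurableSet_mapsTo_open (isCompact_compactCovering X n) hU

end sets

/-! ### values -/

variable {s t : ℝ} {x y z : ℂ} {ω : Pa} {γ : Pr}

theorem bm_apply (x : ℂ) (ω : Pa) (s : ℝ) : bm x ω s = x + (ω s.toNNReal - ω 0) := rfl
@[simp] theorem stp_apply (t : ℝ) (γ : Pr) (s : ℝ) : stp t γ s = γ (min s t) := rfl
@[simp] theorem sft_apply (t : ℝ) (γ : Pr) (s : ℝ) : sft t γ s = γ (t + max s 0) := rfl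
@[simp] theorem rev_apply (t : ℝ) (γ : Pr) (s : ℝ) : rev t γ s = γ (t - s) := rfl
theorem br_apply (t : ℝ) (x y : ℂ) (ω : Pa) (s : ℝ) :
    br t x y ω s = bm x ω (min s t) + fr t s * (y - bm x ω t) := rfl
theorem unr_apply (t : ℝ) (γ : CL) (s : ℝ) : unr t γ s = γ (fr t s : ℝ) := rfl
@[simp] theorem rot_apply (a : S1) (γ : CL) (s : S1) : rot a γ s = γ (s + a) := rfl

theorem bm_of_nonpos (h : s ≤ 0) : bm x ω s = x := by
  rw [bm_apply, Real.toNNReal_of_nonpos h, sub_self, add_zero]

theorem bm_add (x : ℂ) (ω : Pa) (s : ℝ) : bm x ω s = x + bm 0 ω s := by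
  rw [bm_apply, bm_apply, zero_add]

theorem fr_of_nonpos (h : s ≤ 0) : fr t s = 0 := by
  rw [fr, max_eq_left ((min_le_left _ _).trans h), zero_div]

theorem fr_of_ge (ht : 0 < t) (h : t ≤ s) : fr t s = 1 := by
  rw [fr, min_eq_right h, max_eq_right ht.le, div_self ht.ne']

theorem fr_of_mem (h : 0 ≤ s) (h' : s ≤ t) : fr t s = s / t := by
  rw [fr, min_eq_left h', max_eq_right h]

theorem fr_mem (ht : 0 < t) (s : ℝ) : fr t s ∈ Icc (0 : ℝ) 1 :=
  ⟨div_nonneg (le_max_left _ _) ht.le, (div_le_one ht).2 (max_le ht.le (min_le_right _ _))⟩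

theorem br_of_nonpos (h : s ≤ 0) : br t x y ω s = x := by
  rw [br_apply, fr_of_nonpos h, bm_of_nonpos ((min_le_left _ _).trans h)]
  simp

theorem br_of_ge (ht : 0 < t) (h : t ≤ s) : br t x y ω s = y := by
  rw [br_apply, fr_of_ge ht h, min_eq_right h]
  simp

theorem stp_br (t : ℝ) (x y : ℂ) (ω : Pa) : stp t (br t x y ω) = br t x y ω := by
  ext s
  simp only [stp_apply, br_apply, fr, min_assoc, min_self]

theorem loopOf_coe (z : ℂ) (t : ℝ) (ω : Pa) {s : ℝ} (h : s ∈ Icc (0 : ℝ) 1) :
    loopOf z t ω s = brl z t ω s := by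
  rcases h.2.lt_or_eq with h1 | rfl
  · exact AddCircle.liftIco_coe_apply (p := (1 : ℝ)) (a := 0) (f := brl z t ω) ⟨h.1, by simpa using h1⟩
  · rw [show ((1 : ℝ) : S1) = (0 : ℝ) by simp]
    refine (AddCircle.liftIco_coe_apply (p := (1 : ℝ)) (a := 0) (x := 0) (f := brl z t ω)
      (by simp)).trans ?_
    simp [brl]

theorem hk_ne_top (t : ℝ) (z : ℂ) : hk t z ≠ ∞ := ENNReal.ofReal_ne_top

theorem hk_neg (t : ℝ) (z : ℂ) : hk t (-z) = hk t z := by rw [hk, norm_neg, hk]

theorem hk_comm (t : ℝ) (x y : ℂ) : hk t (x - y) = hk t (y - x) := by rw [← hk_neg, neg_sub]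

theorem hk_zero (t : ℝ) : hk t 0 = ENNReal.ofReal (2 * Real.pi * t)⁻¹ := by simp [hk]

theorem hk_le (ht : 0 < t) (z : ℂ) : hk t z ≤ hk t 0 := by
  rw [hk_zero]
  refine ENNReal.ofReal_le_ofReal (mul_le_of_le_one_right (by positivity) (Real.exp_le_one_iff.2 ?_))
  exact div_nonpos_of_nonpos_of_nonneg (neg_nonpos.2 (sq_nonneg _)) (by positivity)

/-! ### measurability -/

variable {α : Type*} [MeasurableSpace α] {T : α → ℝ} {Xf Yf : α → ℂ} {w : α → Pa} {g : α → Pr}
  {l : α → CL}

@[fun_prop] theorem measurable_bm (hx : Measurable Xf) (hw : Measurable w) :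
    Measurable fun a => bm (Xf a) (w a) :=
  measurable_of_ev fun s => by simp only [bm_apply]; fun_prop

@[fun_prop] theorem measurable_stp (ht : Measurable T) (hg : Measurable g) :
    Measurable fun a => stp (T a) (g a) :=
  measurable_of_ev fun s => by simp only [stp_apply]; fun_prop

@[fun_prop] theorem measurable_sft (ht : Measurable T) (hg : Measurable g) :
    Measurable fun a => sft (T a) (g a) :=
  measurable_of_ev fun s => by simp only [sft_apply]; fun_prop

@[fun_prop] theorem measurable_rev (ht : Measurable T) (hg : Measurable g) :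
    Measurable fun a => rev (T a) (g a) :=
  measurable_of_ev fun s => by simp only [rev_apply]; fun_prop

@[fun_prop] theorem measurable_fr {S : α → ℝ} (ht : Measurable T) (hs : Measurable S) :
    Measurable fun a => fr (T a) (S a) := by unfold fr; fun_prop

@[fun_prop] theorem measurable_br (ht : Measurable T) (hx : Measurable Xf) (hy : Measurable Yf)
    (hw : Measurable w) : Measurable fun a => br (T a) (Xf a) (Yf a) (w a) :=
  measurable_of_ev fun s => by simp only [br_apply]; fun_prop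

@[fun_prop] theorem measurable_hk (ht : Measurable T) (hx : Measurable Xf) :
    Measurable fun a => hk (T a) (Xf a) := by unfold hk; fun_prop

@[fun_prop] theorem measurable_S1 (ht : Measurable T) : Measurable fun a => (T a : S1) :=
  AddCircle.measurable_mk'.comp ht

@[fun_prop] theorem measurable_unr (ht : Measurable T) (hl : Measurable l) :
    Measurable fun a => unr (T a) (l a) :=
  measurable_of_ev fun s => by simp only [unr_apply]; fun_prop

@[fun_prop] theorem measurable_rot {A : α → S1} (hA : Measurable A) (hl : Measurable l) :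
    Measurable fun a => rot (A a) (l a) :=
  measurable_of_ev fun s => by simp only [rot_apply]; fun_prop

theorem exists_coe (s : S1) : ∃ r ∈ Ico (0 : ℝ) 1, (r : S1) = s := by
  simpa using AddCircle.eq_coe_Ico s

@[fun_prop] theorem measurable_loopOf (hx : Measurable Xf) (ht : Measurable T) (hw : Measurable w) :
    Measurable fun a => loopOf (Xf a) (T a) (w a) :=
  measurable_of_ev fun s => by
    obtain ⟨r, hr, rfl⟩ := exists_coe s
    simp only [loopOf_coe _ _ _ (Ico_subset_Icc_self hr), brl]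
    fun_prop

variable {W : Measure Pa}

theorem lintegral_Wb (W : Measure Pa) (t : ℝ) (x y : ℂ) {F : Pr → ℝ≥0∞} (hF : Measurable F) :
    ∫⁻ γ, F γ ∂Wb W t x y = hk t (y - x) * ∫⁻ ω, F (br t x y ω) ∂W := by
  rw [Wb, lintegral_smul_measure, lintegral_map hF (by fun_prop), smul_eq_mul]

theorem meas_Wb [SFinite W] {F : α × Pr → ℝ≥0∞} (hF : Measurable F) (ht : Measurable T)
    (hx : Measurable Xf) (hy : Measurable Yf) :
    Measurable fun a => ∫⁻ γ, F (a, γ) ∂Wb W (T a) (Xf a) (Yf a) := by
  have e : ∀ a, ∫⁻ γ, F (a, γ) ∂Wb W (T a) (Xf a) (Yf a) = hk (T a) (Yf a - Xf a) *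
      ∫⁻ ω, F (a, br (T a) (Xf a) (Yf a) ω) ∂W := fun a => lintegral_Wb W _ _ _ (by fun_prop)
  simp only [e]
  exact Measurable.mul (by fun_prop) (Measurable.lintegral_prod_right'
    (f := fun q : α × Pa => F (q.1, br (T q.1) (Xf q.1) (Yf q.1) q.2)) (by fun_prop))

theorem ae_Wb {p : Pr → Prop} (hp : MeasurableSet {γ | p γ}) (h : ∀ᵐ ω ∂W, p (br t x y ω)) :
    ∀ᵐ γ ∂Wb W t x y, p γ :=
  Measure.ae_smul_measure ((ae_map_iff (by fun_prop) hp).2 h) _

instance [IsFiniteMeasure W] : IsFiniteMeasure (Wb W t x y) :=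
  Measure.smul_finite _ (hk_ne_top _ _)

end

end Vale.Agent.P155.BL
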