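import Vale.Agent.P155B.Tail

/-!
# P155: invariance of the loop measure under similarities; ranges are not atoms
-/

set_option linter.all false

namespace Vale.Agent.P155.BL

open MeasureTheory ProbabilityTheory Set Vale.Agent.P155.Q1 Metric Filter Topology
open scoped NNReal ENNReal ComplexConjugate

noncomputable section

variable {W : Measure Pa} {a r s t ε : ℝ} {b c x y z : ℂ}

instance : PolishSpace CL := inferInstance

instance : StandardBorelSpace CL := inferInstance

instance : StandardBorelSpace (ℝ × CL) := inferInstance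

/-- the image of a loop under a similarity -/
def aff (c b : ℂ) (γ : CL) : CL := ⟨fun s => c * γ s + b, by fun_prop⟩

@[simp] theorem aff_apply (c b : ℂ) (γ : CL) (s : S1) : aff c b γ s = c * γ s + b := rfl

@[fun_prop] theorem measurable_aff {α : Type*} [MeasurableSpace α] {C B : α → ℂ} {g : α → CL}
    (hC : Measurable C) (hB : Measurable B) (hg : Measurable g) :
    Measurable fun a => aff (C a) (B a) (g a) :=
  measurable_of_ev fun s => by simp only [aff_apply]; fun_prop

theorem range_aff (c b : ℂ) (γ : CL) : range (aff c b γ) = (fun w => c * w + b) '' range γ :=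
  range_comp (fun w => c * w + b) γ

theorem aff_loopOf (hc : c ≠ 0) (b z : ℂ) (t : ℝ) (ω : Pa) :
    aff c b (loopOf z t ω) = loopOf (c * z + b) (‖c‖ ^ 2 * t) (scl c ω) := by
  have e : ∀ u : ℝ, (‖c‖ ^ 2 * u).toNNReal / ‖c‖₊ ^ 2 = u.toNNReal := fun u => by
    rw [Real.toNNReal_mul (by positivity), Real.toNNReal_pow (norm_nonneg _), norm_toNNReal,
      mul_div_cancel_left₀ _ (by simpa using hc)]
  ext s
  obtain ⟨r, hr, rfl⟩ := exists_coe s
  simp only [aff_apply, loopOf_coe _ _ _ (Ico_subset_Icc_self hr), brl, scl_apply,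
    mul_left_comm r, e, zero_div]
  ring

theorem lintegral_aff (hc : c ≠ 0) (b : ℂ) {f : ℂ → ℝ≥0∞} (hf : Measurable f) :
    ∫⁻ z, f z = ENNReal.ofReal (‖c‖ ^ 2) * ∫⁻ z, f (c * z + b) := by
  have d : LinearMap.det (Algebra.lmul ℝ ℂ c) = ‖c‖ ^ 2 := by
    rw [← Algebra.norm_apply, Algebra.norm_complex_apply, Complex.normSq_eq_norm_sq]
  have p : (0 : ℝ) < ‖c‖ ^ 2 := by positivity
  have e := Measure.map_linearMap_addHaar_eq_smul_addHaar (volume : Measure ℂ) (d.trans_ne p.ne')
  rw [d, abs_of_pos (inv_pos.2 p)] at e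
  have := lintegral_map (μ := (volume : Measure ℂ)) (f := fun z => f (z + b))
    (g := Algebra.lmul ℝ ℂ c) (by fun_prop) (measurable_const_mul c)
  rw [e, lintegral_smul_measure, lintegral_add_right_eq_self] at this
  rw [show ∫⁻ z, f (c * z + b) = _ from this.symm, smul_eq_mul, ← mul_assoc,
    ← ENNReal.ofReal_mul p.le, mul_inv_cancel₀ p.ne', ENNReal.ofReal_one, one_mul]

theorem lintegral_time (ha : 0 < a) {f : ℝ → ℝ≥0∞} (hf : Measurable f) :
    ∫⁻ t in Ioi 0, f t = ENNReal.ofReal a * ∫⁻ t in Ioi 0, f (a * t) := by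
  have e := Real.map_volume_mul_left ha.ne'
  rw [abs_of_pos (inv_pos.2 ha)] at e
  have := lintegral_map (μ := (volume : Measure ℝ)) (hf.indicator (measurableSet_Ioi (a := 0)))
    (measurable_const_mul a)
  rw [e, lintegral_smul_measure, lintegral_indicator measurableSet_Ioi] at this
  rw [← lintegral_indicator measurableSet_Ioi (fun t => f (a * t)),
    show ∫⁻ t, (Ioi 0).indicator (fun t => f (a * t)) t = _ from
      (lintegral_congr fun t => by simp [indicator, ha]).trans this.symm, smul_eq_mul, ← mul_assoc,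
    ← ENNReal.ofReal_mul ha.le, mul_inv_cancel₀ ha.ne', ENNReal.ofReal_one, one_mul]

/-- properties which hold for almost all roots hold for almost all loops -/
theorem ae_loopT' [SFinite W] {p : ℝ × CL → Prop} (hp : MeasurableSet {q | p q})
    (h : ∀ t, 0 < t → ∀ᵐ ω ∂W, ∀ᵐ z, p (t, loopOf z t ω)) : ∀ᵐ q ∂loopT W, p q := by
  have hp' : MeasurableSet {q | ¬ p q} := hp.compl
  have m : Measurable ({q | ¬ p q}.indicator (1 : ℝ × CL → ℝ≥0∞)) := measurable_one.indicator hp'
  rw [ae_iff, ← lintegral_indicator_one hp', lintegral_loopT m, lintegral_lintegral_swap (by fun_prop)]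
  refine (setLIntegral_congr_fun measurableSet_Ioi fun t ht => ?_).trans lintegral_zero
  beta_reduce
  rw [lintegral_const_mul _ (by fun_prop), lintegral_lintegral_swap (by fun_prop)]
  refine mul_eq_zero.2 (.inr ((lintegral_congr_ae ((h t ht).mono fun ω hω => ?_)).trans
    lintegral_zero))
  exact (lintegral_congr_ae (hω.mono fun z hz => indicator_of_notMem (not_not.2 hz) _)).trans
    lintegral_zero

theorem isClosed_range_eq : IsClosed {q : CL × CL | range q.1 = range q.2} := by
  have k : IsClosed {q : CL × CL | range q.1 ⊆ range q.2} := by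
    simp only [range_subset_iff, setOf_forall]
    refine isClosed_iInter fun s => ?_
    have := isClosedMap_fst_of_compactSpace (X := CL × CL) (Y := S1)
      {p | p.1.2 p.2 = p.1.1 s} (isClosed_eq (by fun_prop) (by fun_prop))
    convert this using 1
    ext q
    simp
  simp only [subset_antisymm_iff]
  exact k.inter (k.preimage continuous_swap)

theorem measurableSet_range_eq (K : Set ℂ) : MeasurableSet {γ : CL | range γ = K} := by
  by_cases h : ∃ γ : CL, range γ = K
  · obtain ⟨γ', rfl⟩ := h
    exact (isClosed_range_eq.preimage (Continuous.prodMk_left γ')).measurableSet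
  · rw [eq_empty_of_forall_notMem (s := {γ : CL | range γ = K}) (not_exists.1 h)]
    exact .empty

theorem root_unique {z z' : ℂ} {ω : Pa} (h : range (loopOf z t ω) = range (loopOf z' t ω)) :
    z = z' := by
  have k : ∀ {z z' : ℂ}, range (loopOf z t ω) = range (loopOf z' t ω) → ∀ c : ℂ,
      (c * z).re ≤ (c * z').re := fun {z z'} h c => by
    obtain ⟨s, -, hs⟩ := isCompact_univ.exists_isMaxOn (f := fun s => (c * loopOf 0 t ω s).re)
      univ_nonempty (Complex.continuous_re.comp
        (continuous_const.mul (map_continuous _))).continuousOn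
    obtain ⟨s', hs'⟩ : loopOf z t ω s ∈ range (loopOf z' t ω) := h ▸ mem_range_self s
    have h1 : (c * loopOf 0 t ω s').re ≤ (c * loopOf 0 t ω s).re := hs (mem_univ s')
    have h2 := congrArg (fun w => (c * w).re) hs'
    simp only [loopOf_add z, loopOf_add z', mul_add, Complex.add_re] at h2
    linarith
  apply Complex.ext
  · simpa using le_antisymm (k h 1) (k h.symm 1)
  · simpa using le_antisymm (k h Complex.I) (k h.symm Complex.I)

theorem range_null [SFinite W] (K : Set ℂ) : loopM W {γ | range γ = K} = 0 := by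
  rw [loopM_apply (measurableSet_range_eq K), ← compl_mem_ae_iff]
  refine ae_loopT' (measurable_snd (measurableSet_range_eq K)).compl fun t _ =>
    .of_forall fun ω => ?_
  exact (Set.Subsingleton.measure_zero (s := {z | range (loopOf z t ω) = K})
    (fun z hz z' hz' => root_unique (hz.trans hz'.symm)) _ |> compl_mem_ae_iff.2)

theorem range_null₂ [SFinite W] : (loopM W).prod (loopM W) {q | range q.1 = range q.2} = 0 := by
  rw [Measure.prod_apply isClosed_range_eq.measurableSet]
  refine (lintegral_congr fun γ => ?_).trans lintegral_zero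
  simpa only [preimage_setOf_eq, eq_comm] using range_null (range γ)

namespace IsWiener

variable (h : IsWiener W)
include h

theorem lintegral_aff (hc : c ≠ 0) (b : ℂ) {F : ℝ × CL → ℝ≥0∞} (hF : Measurable F) :
    ∫⁻ q, F (‖c‖ ^ 2 * q.1, aff c b q.2) ∂loopT W = ∫⁻ q, F q ∂loopT W := by
  have := h.prob
  have p : (0 : ℝ) < ‖c‖ ^ 2 := by positivity
  rw [lintegral_loopT (by fun_prop), lintegral_loopT hF, BL.lintegral_aff hc b
    (f := fun z => ∫⁻ t in Ioi 0, ENNReal.ofReal (1 / (2 * Real.pi * t ^ 2)) *
      ∫⁻ ω, F (t, loopOf z t ω) ∂W) (by fun_prop), ← lintegral_const_mul _ (by fun_prop)]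
  refine lintegral_congr fun z => ?_
  rw [lintegral_time p (f := fun t => ENNReal.ofReal (1 / (2 * Real.pi * t ^ 2)) *
      ∫⁻ ω, F (t, loopOf (c * z + b) t ω) ∂W) (by fun_prop), ← lintegral_const_mul _ (by fun_prop),
    ← lintegral_const_mul _ (by fun_prop)]
  refine setLIntegral_congr_fun measurableSet_Ioi fun t ht => ?_
  have ht : 0 < t := ht
  simp only [aff_loopOf hc]
  rw [← lintegral_map (f := fun ω => F (‖c‖ ^ 2 * t, loopOf (c * z + b) (‖c‖ ^ 2 * t) ω))
    (by fun_prop) (by fun_prop), h.scale hc, ← mul_assoc, ← mul_assoc, ← ENNReal.ofReal_mul p.le,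
    ← ENNReal.ofReal_mul (by positivity)]
  congr 2
  field_simp

/-- **The loop measure is invariant under similarities.** -/
theorem aff_mapT (hc : c ≠ 0) (b : ℂ) :
    (loopT W).map (fun q => (‖c‖ ^ 2 * q.1, aff c b q.2)) = loopT W := by
  ext A hA
  rw [← lintegral_indicator_one hA, ← lintegral_indicator_one hA,
    lintegral_map (measurable_one.indicator hA) (by fun_prop),
    h.lintegral_aff hc b (measurable_one.indicator hA)]

theorem aff_map (hc : c ≠ 0) (b : ℂ) : (loopM W).map (aff c b) = loopM W := by
  conv_rhs => rw [loopM, ← h.aff_mapT hc b]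
  rw [loopM, Measure.map_map (by fun_prop) measurable_snd,
    Measure.map_map measurable_snd (by fun_prop)]
  rfl

theorem rot_mapM (a : S1) : (loopM W).map (rot a) = loopM W := by
  conv_rhs => rw [loopM, ← h.rot_map a]
  rw [loopM, Measure.map_map (by fun_prop) measurable_snd,
    Measure.map_map measurable_snd (by fun_prop)]
  rfl

end IsWiener

end

end Vale.Agent.P155.BL
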