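import Vale.Agent.P155B.Loop

/-!
# P155: tails of Brownian motion, finiteness properties and symmetries of the loop measure
-/

set_option linter.all false

namespace Vale.Agent.P155.BL

open MeasureTheory ProbabilityTheory Set Vale.Agent.P155.Q1 Metric Filter Topology
open scoped NNReal ENNReal ComplexConjugate

noncomputable section

variable {W : Measure Pa} {a r s t ε : ℝ} {x y z : ℂ}

theorem measurable_diam : Measurable fun γ : CL => diam (range γ) := by
  have : LipschitzWith 2 fun γ : CL => diam (range γ) := LipschitzWith.of_le_add_mul _ fun γ γ' =>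
    (PL.diam_le ⟨γ⟩ ⟨γ'⟩).trans (add_le_add le_rfl
      (mul_le_mul_of_nonneg_left (ldist_le_dist ⟨γ⟩ ⟨γ'⟩) zero_le_two))
  exact this.continuous.measurable

theorem isOpen_exit (t ε : ℝ) : IsOpen {ω : Pa | ∃ s ∈ Icc 0 t, ε < ‖bm 0 ω s‖} := by
  simp only [setOf_exists, bm_apply]
  refine isOpen_iUnion fun s => ?_
  by_cases h : s ∈ Icc 0 t
  · simp only [h, true_and]
    exact isOpen_lt continuous_const (by fun_prop)
  · simp [h]

theorem hk_tail (ht : 0 < t) (hε : 0 ≤ ε) (h : ε < ‖y‖) :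
    hk t y ≤ ENNReal.ofReal (2 * Real.exp (-ε ^ 2 / (4 * t))) * hk (2 * t) y := by
  rw [hk, hk, ← ENNReal.ofReal_mul (by positivity)]
  refine ENNReal.ofReal_le_ofReal ?_
  rw [show 2 * Real.exp (-ε ^ 2 / (4 * t)) * ((2 * Real.pi * (2 * t))⁻¹ *
      Real.exp (-‖y‖ ^ 2 / (2 * (2 * t)))) = (2 * Real.pi * t)⁻¹ *
      Real.exp (-ε ^ 2 / (4 * t) + -‖y‖ ^ 2 / (2 * (2 * t))) by rw [Real.exp_add]; field_simp]
  refine mul_le_mul_of_nonneg_left (Real.exp_le_exp.2 ?_) (by positivity)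
  have := pow_le_pow_left₀ hε h.le 2
  rw [div_add_div _ _ (by positivity) (by positivity), div_le_div_iff₀ (by positivity)
    (by positivity)]
  nlinarith [mul_nonneg (pow_pos ht 2).le (sub_nonneg.2 this)]

theorem diam_loopOf (ht : 0 < t) {ω : Pa} (h : ∀ s ∈ Icc 0 t, ‖bm 0 ω s‖ ≤ ε) (z : ℂ) :
    diam (range (loopOf z t ω)) ≤ 4 * ε := by
  have h0 : 0 ≤ ε := (norm_nonneg _).trans (h 0 ⟨le_rfl, ht.le⟩)
  refine (diam_le_of_subset_closedBall (x := z) (r := 2 * ε) (by positivity) ?_).trans_eq (by ring)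
  rintro _ ⟨s, rfl⟩
  obtain ⟨r, hr, rfl⟩ := exists_coe s
  have h1 := h (r * t) ⟨mul_nonneg hr.1 ht.le, mul_le_of_le_one_left ht.le hr.2.le⟩
  have h2 := h t ⟨ht.le, le_rfl⟩
  rw [bm_apply, zero_add] at h1 h2
  rw [loopOf_coe _ _ _ (Ico_subset_Icc_self hr), brl, mem_closedBall_iff_norm, add_sub_assoc,
    add_sub_cancel_left]
  refine (norm_sub_le _ _).trans ?_
  rw [norm_mul, Complex.norm_real, Real.norm_of_nonneg hr.1]
  nlinarith [hr.1, hr.2, norm_nonneg (ω t.toNNReal - ω 0)]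

namespace IsWiener

variable (h : IsWiener W)
include h

theorem pt_tail (ht : 0 < t) (hε : 0 ≤ ε) :
    W {ω | ε < ‖bm 0 ω t‖} ≤ ENNReal.ofReal (2 * Real.exp (-ε ^ 2 / (4 * t))) := by
  have m : MeasurableSet {y : ℂ | ε < ‖y‖} := measurableSet_lt measurable_const (by fun_prop)
  have := h.law ht 0 (measurable_one.indicator m)
  rw [← lintegral_indicator_one (measurableSet_lt measurable_const (by fun_prop))]
  refine (this.trans_le (lintegral_mono (g := fun y => ENNReal.ofReal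
    (2 * Real.exp (-ε ^ 2 / (4 * t))) * hk (2 * t) y) fun y => ?_)).trans ?_
  · by_cases hy : ε < ‖y‖
    · simpa [indicator, hy] using hk_tail ht hε hy
    · simp [indicator, hy]
  · rw [lintegral_const_mul _ (by fun_prop), lintegral_hk (by positivity), mul_one]

theorem reflect (hs : 0 ≤ s) (hst : s ≤ t) {A : Set Pr} (hA : MeasurableSet A)
    (hε : ∀ γ ∈ A, ε < ‖γ s‖) : W {ω | stp s (bm 0 ω) ∈ A} ≤
      2 * W ({ω | stp s (bm 0 ω) ∈ A} ∩ {ω | ε < ‖bm 0 ω t‖}) := by
  have := h.prob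
  let B : ℂ → Set (Pr × Pa) := fun c => {q | q.1 ∈ A ∧ ε < ‖q.1 s + c * bm 0 q.2 (t - s)‖}
  have mB : ∀ c, MeasurableSet (B c) := fun c =>
    (measurable_fst hA).inter (measurableSet_lt (g := fun q : Pr × Pa =>
      ‖q.1 s + c * bm 0 q.2 (t - s)‖) measurable_const (by fun_prop))
  have k : ∀ c, W {ω | (stp s (bm 0 ω), th s ω) ∈ B c} =
      ∫⁻ ω, ∫⁻ ω', (B c).indicator 1 (stp s (bm 0 ω), ω') ∂W ∂W := fun c => by
    rw [← h.markov0 hs (measurable_one.indicator (mB c))]
    exact (lintegral_indicator_one ((by fun_prop : Measurable fun ω => (stp s (bm 0 ω), th s ω))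
      (mB c))).symm
  have e : W {ω | (stp s (bm 0 ω), th s ω) ∈ B (-1)} = W {ω | (stp s (bm 0 ω), th s ω) ∈ B 1} := by
    rw [k, k]
    refine lintegral_congr fun ω => ?_
    conv_rhs => rw [← h.scale (c := -1) (by simp), lintegral_map
      (f := fun ω' => (B 1).indicator 1 (stp s (bm 0 ω), ω'))
      ((measurable_one.indicator (mB 1)).comp measurable_prodMk_left) (by fun_prop)]
    refine lintegral_congr fun ω' => ?_
    have : bm 0 (scl (-1) ω') (t - s) = -1 * bm 0 ω' (t - s) := by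
      simp [bm_apply, scl_apply]
      ring
    classical
    rw [indicator_apply, indicator_apply]
    exact if_congr (by simp only [B, mem_setOf_eq, this, one_mul]) rfl rfl
  have e1 : {ω | (stp s (bm 0 ω), th s ω) ∈ B 1} =
      {ω | stp s (bm 0 ω) ∈ A} ∩ {ω | ε < ‖bm 0 ω t‖} := by
    ext ω
    have := bm_th hs 0 ω (t - s)
    rw [bm_add, max_eq_left (sub_nonneg.2 hst), add_sub_cancel] at this
    simp only [B, mem_setOf_eq, mem_inter_iff, stp_apply, min_self, one_mul, this]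
  rw [two_mul, ← e1]
  nth_rewrite 1 [← e]
  refine (measure_mono fun ω hω => ?_).trans (measure_union_le _ _)
  by_contra h'
  simp only [B, mem_union, mem_setOf_eq, show stp s (bm 0 ω) ∈ A from hω, true_and, not_or,
    not_lt] at h'
  have h1 := hε _ hω
  have h2 := norm_add_le (stp s (bm 0 ω) s + -1 * bm 0 (th s ω) (t - s))
    (stp s (bm 0 ω) s + 1 * bm 0 (th s ω) (t - s))
  rw [show stp s (bm 0 ω) s + -1 * bm 0 (th s ω) (t - s) + (stp s (bm 0 ω) s +
    1 * bm 0 (th s ω) (t - s)) = 2 * stp s (bm 0 ω) s by ring, norm_mul, Complex.norm_two] at h2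
  linarith [h'.1, h'.2]

theorem levy_fin {F : Finset ℝ} (hF : ∀ s ∈ F, s ∈ Icc 0 t) :
    W {ω | ∃ s ∈ F, ε < ‖bm 0 ω s‖} ≤ 2 * W {ω | ε < ‖bm 0 ω t‖} := by
  let A : ℝ → Set Pr := fun s => {γ | ε < ‖γ s‖ ∧ ∀ r ∈ F, r < s → ‖γ r‖ ≤ ε}
  have mA : ∀ s, MeasurableSet (A s) := fun s => by
    show MeasurableSet ({γ : Pr | ε < ‖γ s‖} ∩ {γ : Pr | ∀ r ∈ F, r < s → ‖γ r‖ ≤ ε})
    refine (measurableSet_lt measurable_const (by fun_prop)).inter ?_
    simp only [setOf_forall]
    exact F.measurableSet_biInter fun r _ => MeasurableSet.iInter fun _ =>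
      measurableSet_le (by fun_prop) measurable_const
  have e : ∀ s ω, stp s (bm 0 ω) ∈ A s ↔ ε < ‖bm 0 ω s‖ ∧ ∀ r ∈ F, r < s → ‖bm 0 ω r‖ ≤ ε :=
    fun s ω => by
      simp only [A, mem_setOf_eq, stp_apply, min_self]
      exact and_congr_right fun _ => forall₃_congr fun r _ hr => by rw [min_eq_left hr.le]
  have h1 : {ω | ∃ s ∈ F, ε < ‖bm 0 ω s‖} ⊆ ⋃ s ∈ F, {ω | stp s (bm 0 ω) ∈ A s} := fun ω hω => by
    classical
    obtain ⟨s, hs, hm⟩ := (F.filter fun s => ε < ‖bm 0 ω s‖).exists_min_image id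
      (hω.imp fun s hs => Finset.mem_filter.2 hs)
    rw [Finset.mem_filter] at hs
    exact mem_biUnion hs.1 ((e s ω).2 ⟨hs.2, fun r hr hr' => not_lt.1 fun q =>
      (hm r (Finset.mem_filter.2 ⟨hr, q⟩)).not_gt hr'⟩)
  refine ((measure_mono h1).trans (measure_biUnion_finset_le _ _)).trans
    ((Finset.sum_le_sum fun s hs => h.reflect (hF s hs).1 (hF s hs).2 (mA s)
      fun γ hγ => hγ.1).trans ?_)
  rw [← Finset.mul_sum, ← measure_biUnion_finset]
  · exact mul_le_mul_right (measure_mono (iUnion₂_subset fun _ _ => inter_subset_right)) _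
  · intro s hs r hr hne
    refine disjoint_left.2 fun ω h1 h2 => ?_
    rcases lt_or_gt_of_ne hne with q | q
    · exact (((e r ω).1 h2.1).2 s hs q).not_gt ((e s ω).1 h1.1).1
    · exact (((e s ω).1 h1.1).2 r hr q).not_gt ((e r ω).1 h2.1).1
  · exact fun s _ => ((by fun_prop : Measurable fun ω => stp s (bm 0 ω)) (mA s)).inter
      (measurableSet_lt measurable_const (by fun_prop))

/-- **Levy's inequality.** -/
theorem levy (ht : 0 ≤ t) :
    W {ω | ∃ s ∈ Icc 0 t, ε < ‖bm 0 ω s‖} ≤ 2 * W {ω | ε < ‖bm 0 ω t‖} := by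
  classical
  have : Nonempty (Icc 0 t) := ⟨⟨0, le_rfl, ht⟩⟩
  let d := TopologicalSpace.denseSeq (Icc 0 t)
  have h1 : {ω | ∃ s ∈ Icc 0 t, ε < ‖bm 0 ω s‖} ⊆
      ⋃ n, {ω | ∃ s ∈ (Finset.range n).image fun j => (d j : ℝ), ε < ‖bm 0 ω s‖} := by
    rintro ω ⟨s, hs, hs'⟩
    obtain ⟨j, hj⟩ := (TopologicalSpace.denseRange_denseSeq (Icc 0 t)).exists_mem_open
      (s := {u : Icc 0 t | ε < ‖bm 0 ω u‖}) (isOpen_lt continuous_const (by fun_prop))
      ⟨⟨s, hs⟩, hs'⟩
    exact mem_iUnion.2 ⟨j + 1, _, Finset.mem_image_of_mem _ (Finset.self_mem_range_succ j), hj⟩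
  refine (measure_mono h1).trans ?_
  have hm : Monotone fun n => {ω : Pa | ∃ s ∈ (Finset.range n).image fun j => (d j : ℝ),
      ε < ‖bm 0 ω s‖} := fun m n hmn ω ⟨s, hs, hs'⟩ =>
    ⟨s, Finset.image_subset_image (Finset.range_mono hmn) hs, hs'⟩
  rw [hm.measure_iUnion]
  refine iSup_le fun n => h.levy_fin fun s hs => ?_
  obtain ⟨j, -, rfl⟩ := Finset.mem_image.1 hs
  exact (d j).2

theorem sup_tail (ht : 0 < t) (hε : 0 ≤ ε) : W {ω | ∃ s ∈ Icc 0 t, ε < ‖bm 0 ω s‖} ≤
    ENNReal.ofReal (4 * Real.exp (-ε ^ 2 / (4 * t))) := by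
  refine (h.levy ht.le).trans ((mul_le_mul_right (h.pt_tail ht hε) _).trans_eq ?_)
  rw [← ENNReal.ofReal_ofNat 2, ← ENNReal.ofReal_mul zero_le_two]
  congr 1
  ring

theorem diam_tail (ht : 0 < t) (hε : 0 ≤ ε) (z : ℂ) : W {ω | ε < diam (range (loopOf z t ω))} ≤
    ENNReal.ofReal (4 * Real.exp (-(ε / 4) ^ 2 / (4 * t))) := by
  refine (measure_mono fun ω hω => ?_).trans (h.sup_tail ht (by positivity))
  by_contra h'
  simp only [mem_setOf_eq, not_exists, not_and, not_lt] at h'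
  exact (diam_loopOf ht h' z).not_gt (by rwa [mul_div_cancel₀ _ four_ne_zero])

/-- the mass of the loops rooted in `V` of diameter larger than `ε` -/
theorem root_fin {V : Set ℂ} (hV : MeasurableSet V) (hV' : volume V ≠ ∞) (hε : 0 < ε) :
    loopM W {γ | γ 0 ∈ V ∧ ε < diam (range γ)} < ∞ := by
  have := h.prob
  have m : MeasurableSet {γ : CL | γ 0 ∈ V ∧ ε < diam (range γ)} :=
    (measurable_ev 0 hV).inter (measurableSet_lt measurable_const measurable_diam)
  obtain ⟨c, hc, c0⟩ : ∃ c, c = (ε / 4) ^ 2 / 8 ∧ 0 < c := ⟨_, rfl, by positivity⟩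
  have i := (integrableOn_add_rpow_Ioi_of_lt (a := -2) (c := 0) (m := c) (by norm_num)
    (by linarith)).lintegral_lt_top
  rw [← lintegral_indicator_one m, lintegral_loopM (measurable_one.indicator m),
    lintegral_loopT (F := fun q => {γ : CL | γ 0 ∈ V ∧ ε < diam (range γ)}.indicator 1 q.2)
      ((measurable_one.indicator m).comp measurable_snd)]
  refine (lintegral_mono (g := V.indicator fun _ =>
    ∫⁻ t in Ioi 0, ENNReal.ofReal ((t + c) ^ (-2 : ℝ))) fun z => ?_).trans_lt ?_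
  · by_cases hz : z ∈ V
    · rw [indicator_of_mem hz]
      refine setLIntegral_mono' measurableSet_Ioi fun t ht => ?_
      have ht : 0 < t := ht
      have h1 : ∫⁻ ω, {γ : CL | γ 0 ∈ V ∧ ε < diam (range γ)}.indicator 1 (loopOf z t ω) ∂W ≤ _ :=
        le_trans ((lintegral_indicator_one ((by fun_prop : Measurable fun ω => loopOf z t ω) m)).le.trans
          (measure_mono fun ω hω => hω.2)) (h.diam_tail ht hε.le z)
      refine (mul_le_mul_right h1 _).trans ?_
      rw [← ENNReal.ofReal_mul (by positivity)]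
      refine ENNReal.ofReal_le_ofReal ?_
      have h2 : (1 + c / t) ^ 2 ≤ Real.exp (2 * (c / t)) := by
        rw [two_mul, Real.exp_add, sq]
        have := Real.add_one_le_exp (c / t)
        exact mul_le_mul (by linarith) (by linarith) (by positivity) (by positivity)
      rw [show -(ε / 4) ^ 2 / (4 * t) = -(2 * (c / t)) by rw [hc]; field_simp; ring, Real.exp_neg,
        Real.rpow_neg (by positivity), Real.rpow_two, show (t + c) ^ 2 = t ^ 2 * (1 + c / t) ^ 2 by
          field_simp, mul_inv, ← mul_assoc]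
      refine mul_le_mul ?_ (inv_anti₀ (by positivity) h2) (by positivity) (by positivity)
      rw [div_mul_eq_mul_div, one_mul, div_le_iff₀ (by positivity)]
      field_simp
      linarith [Real.two_le_pi]
    · simp [indicator, loopOf_zero, hz]
  · rw [lintegral_indicator hV, setLIntegral_const]
    exact ENNReal.mul_lt_top i hV'.lt_top

theorem fin {V : Set ℂ} (hV : Bornology.IsBounded V) (hε : 0 < ε) :
    loopM W {γ | range γ ⊆ V ∧ ε < diam (range γ)} < ∞ := by
  refine (measure_mono ?_).trans_lt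
    (h.root_fin isClosed_closure.measurableSet hV.closure.measure_lt_top.ne hε)
  exact fun γ hγ => ⟨subset_closure (hγ.1 ⟨0, rfl⟩), hγ.2⟩

theorem pt_null (ht : 0 < t) (x : ℂ) {N : Set ℂ} (hN : MeasurableSet N) (h0 : volume N = 0) :
    ∀ᵐ ω ∂W, bm x ω t ∉ N := by
  have := h.law ht x (measurable_one.indicator hN)
  rw [lintegral_congr_ae (g := fun _ => 0) ((measure_eq_zero_iff_ae_notMem.1 h0).mono fun y hy => by
    simp [hy]), lintegral_zero, lintegral_eq_zero_iff (f := fun ω => N.indicator 1 (bm x ω t))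
      ((measurable_one.indicator hN).comp (by fun_prop))] at this
  exact this.mono fun ω hω h' => by simp [h'] at hω

theorem br_null (hs : 0 < s) (hst : s < t) (x y : ℂ) {N : Set ℂ} (hN : MeasurableSet N)
    (h0 : volume N = 0) : ∀ᵐ ω ∂W, br t x y ω s ∉ N := by
  have m : Measurable fun γ : Pr => N.indicator (1 : ℂ → ℝ≥0∞) (γ s) :=
    (measurable_one.indicator hN).comp (by fun_prop)
  have := h.ac hs (sub_pos.2 hst) x y m
  rw [add_sub_cancel, lintegral_congr_ae (μ := W) (g := fun _ => 0) ((h.pt_null hs x hN h0).mono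
    fun ω hω => by simp [hω]), lintegral_zero, lintegral_Wb _ _ _ _ (by fun_prop), mul_eq_zero,
    lintegral_eq_zero_iff (by fun_prop)] at this
  refine (this.resolve_left ?_).mono fun ω hω h' => by simp [h'] at hω
  have := hs.trans hst
  exact (ENNReal.ofReal_pos.2 (by positivity)).ne'

theorem nonconst : ∀ᵐ γ : CL ∂loopM W, 0 < diam (range γ) := by
  have := h.prob
  have m := measurableSet_lt (measurable_const (a := (0 : ℝ))) measurable_diam
  refine (ae_map_iff measurable_snd.aemeasurable m).2 (ae_loopT (measurable_snd m)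
    (.of_forall fun z t ht => ?_))
  filter_upwards [h.br_null (half_pos ht) (half_lt_self ht) z z (measurableSet_singleton z)
    (measure_singleton z)] with ω hω
  rw [range_loopOf ht]
  exact (dist_pos.2 hω).trans_le (dist_le_diam_of_mem (by
    rw [← range_loopOf ht]; exact (isCompact_range (map_continuous _)).isBounded) ⟨_, rfl⟩
    ⟨0, br_of_nonpos le_rfl⟩)

theorem sigmaFinite_loopM : SigmaFinite (loopM W) := by
  refine Measure.sigmaFinite_of_countable (S := insert {γ : CL | ¬ 0 < diam (range γ)}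
    (range fun n : ℕ => {γ | γ 0 ∈ ball (0 : ℂ) n ∧ 1 / (n + 1 : ℝ) < diam (range γ)}))
    ((countable_range _).insert _) ?_ (eq_univ_of_forall fun γ => ?_)
  · rintro _ (rfl | ⟨n, rfl⟩)
    · exact (ae_iff.1 h.nonconst).trans_lt ENNReal.zero_lt_top
    · exact h.root_fin measurableSet_ball measure_ball_lt_top.ne (by positivity)
  · by_cases h0 : 0 < diam (range γ)
    · obtain ⟨n, hn⟩ := ((tendsto_natCast_atTop_atTop.eventually_gt_atTop (dist (γ 0) 0)).and
        (tendsto_one_div_add_atTop_nhds_zero_nat.eventually_lt_const h0)).exists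
      exact ⟨_, .inr ⟨n, rfl⟩, hn⟩
    · exact ⟨_, .inl rfl, h0⟩

theorem sigmaFinite_loopT : SigmaFinite (loopT W) :=
  SigmaFinite.of_map _ measurable_snd.aemeasurable h.sigmaFinite_loopM

end IsWiener

end

end Vale.Agent.P155.BL
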