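import Vale.Agent.P155B.Meas
import Vale.Agent.P155Z.BM

/-!
# P155: the Wiener measure: existence, uniqueness, Gaussian calculus, Markov property
-/

set_option linter.all false

namespace Vale.Agent.P155.BL

open MeasureTheory ProbabilityTheory Set Vale.Agent.P155.Q1
open scoped NNReal ENNReal ComplexConjugate

noncomputable section

variable {W W' : Measure Pa}

theorem IsWiener.prob (h : IsWiener W) : IsProbabilityMeasure W :=
  h.re.isGaussianProcess.isProbabilityMeasure

/-! ### transport of the property, uniqueness -/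

theorem isBrownian_map {Θ Θ' : Type*} [MeasurableSpace Θ] [MeasurableSpace Θ'] {P : Measure Θ}
    {Φ : Θ → Θ'} (hΦ : Measurable Φ) {X : ℝ≥0 → Θ' → ℝ} (hX : ∀ t, Measurable (X t))
    (hc : ∀ ω, Continuous fun t => X t ω) (h : IsPreBrownianReal (fun t ω => X t (Φ ω)) P) :
    IsBrownianReal X (P.map Φ) where
  hasLaw I := by
    have m : Measurable fun ω => I.restrict (X · ω) := measurable_pi_lambda _ fun i => hX i
    exact ⟨m.aemeasurable, by rw [Measure.map_map m hΦ]; exact (h.hasLaw I).map_eq⟩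
  cont := .of_forall hc

theorem isWiener_map {Θ : Type*} [MeasurableSpace Θ] {P : Measure Θ} {Φ : Θ → Pa}
    (hΦ : Measurable Φ) (h1 : IsPreBrownianReal (fun t ω => (Φ ω t).re) P)
    (h2 : IsPreBrownianReal (fun t ω => (Φ ω t).im) P)
    (h3 : IndepFun (fun ω t => (Φ ω t).re) (fun ω t => (Φ ω t).im) P) : IsWiener (P.map Φ) := by
  have := h1.isGaussianProcess.isProbabilityMeasure
  have m1 : Measurable fun (ω : Pa) t => (ω t).re := by fun_prop
  have m2 : Measurable fun (ω : Pa) t => (ω t).im := by fun_prop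
  refine ⟨isBrownian_map hΦ (by fun_prop) (by fun_prop) h1,
    isBrownian_map hΦ (by fun_prop) (by fun_prop) h2, ?_⟩
  have := Measure.isProbabilityMeasure_map (μ := P) hΦ.aemeasurable
  rw [indepFun_iff_map_prod_eq_prod_map_map m1.aemeasurable m2.aemeasurable,
    Measure.map_map m1 hΦ, Measure.map_map m2 hΦ, Measure.map_map (m1.prodMk m2) hΦ]
  exact (indepFun_iff_map_prod_eq_prod_map_map (m1.comp hΦ).aemeasurable
    (m2.comp hΦ).aemeasurable).1 h3

theorem pre_unique {Θ Θ' : Type*} [MeasurableSpace Θ] [MeasurableSpace Θ'] {P : Measure Θ}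
    {P' : Measure Θ'} {X : ℝ≥0 → Θ → ℝ} {X' : ℝ≥0 → Θ' → ℝ} (h : IsPreBrownianReal X P)
    (h' : IsPreBrownianReal X' P') (m : Measurable fun ω t => X t ω)
    (m' : Measurable fun ω t => X' t ω) :
    P.map (fun ω t => X t ω) = P'.map fun ω t => X' t ω := by
  have := h.isGaussianProcess.isProbabilityMeasure
  have := h'.isGaussianProcess.isProbabilityMeasure
  have a := isProjectiveLimit_map (P := P) (X := X) m.aemeasurable
  have b := isProjectiveLimit_map (P := P') (X := X') m'.aemeasurable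
  simp only [fun I => (h.hasLaw I).map_eq] at a
  simp only [fun I => (h'.hasLaw I).map_eq] at b
  exact a.unique b

theorem IsWiener.unique (h : IsWiener W) (h' : IsWiener W') : W = W' := by
  have := h.prob
  have := h'.prob
  have m1 : Measurable fun (ω : Pa) t => (ω t).re := by fun_prop
  have m2 : Measurable fun (ω : Pa) t => (ω t).im := by fun_prop
  have e : (fun (f : Pa) t => f t) = (fun (p : (ℝ≥0 → ℝ) × (ℝ≥0 → ℝ)) t =>
      (p.1 t + p.2 t * Complex.I : ℂ)) ∘ fun f => (fun t => (f t).re, fun t => (f t).im) := by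
    funext f t
    exact (Complex.re_add_im _).symm
  refine ext_coe ?_
  rw [e, ← Measure.map_map (by fun_prop) (m1.prodMk m2),
    ← Measure.map_map (by fun_prop) (m1.prodMk m2),
    (indepFun_iff_map_prod_eq_prod_map_map m1.aemeasurable m2.aemeasurable).1 h.ind,
    (indepFun_iff_map_prod_eq_prod_map_map m1.aemeasurable m2.aemeasurable).1 h'.ind,
    pre_unique h.re.toIsPreBrownianReal h'.re.toIsPreBrownianReal m1 m1,
    pre_unique h.im.toIsPreBrownianReal h'.im.toIsPreBrownianReal m2 m2]

/-- a measurable version with continuous paths -/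
theorem version {Θ : Type*} [MeasurableSpace Θ] {P : Measure Θ} {B : ℝ≥0 → Θ → ℝ}
    (hB : IsBrownianReal B P) : ∃ B' : ℝ≥0 → Θ → ℝ, (∀ t, Measurable (B' t)) ∧
      (∀ ω, Continuous fun t => B' t ω) ∧ IsPreBrownianReal B' P := by
  have h1 : ∀ᵐ ω ∂P, (Continuous fun t => B t ω) ∧ ∀ j, B (TopologicalSpace.denseSeq ℝ≥0 j) ω =
      (hB.aemeasurable (TopologicalSpace.denseSeq ℝ≥0 j)).mk _ ω := by
    filter_upwards [hB.cont, ae_all_iff.2 fun j =>
      (hB.aemeasurable (TopologicalSpace.denseSeq ℝ≥0 j)).ae_eq_mk] with ω a c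
    exact ⟨a, c⟩
  obtain ⟨N, hN1, hN2, hN3⟩ := exists_measurable_superset_of_null (ae_iff.1 h1)
  have h2 := fun ω (hω : ω ∈ Nᶜ) => not_not.1 fun h => hω (hN1 h)
  refine ⟨fun t => Nᶜ.indicator (B t), fun t => ?_, fun ω => ?_, hB.congr fun t => ?_⟩
  · obtain ⟨u, hu1, hu2⟩ := mem_closure_iff_seq_limit.1 (TopologicalSpace.denseRange_denseSeq ℝ≥0 t)
    choose j hj using hu1
    refine measurable_of_tendsto_metrizable (f := fun n =>
      Nᶜ.indicator ((hB.aemeasurable (TopologicalSpace.denseSeq ℝ≥0 (j n))).mk _))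
      (fun n => (hB.aemeasurable _).measurable_mk.indicator hN2.compl)
      (tendsto_pi_nhds.2 fun ω => ?_)
    by_cases hω : ω ∈ Nᶜ
    · simp only [indicator_of_mem hω]
      refine (((h2 ω hω).1.tendsto t).comp hu2).congr fun n => ?_
      rw [← (h2 ω hω).2, hj]
      rfl
    · simp only [indicator_of_notMem hω]
      exact tendsto_const_nhds
  · by_cases hω : ω ∈ Nᶜ
    · simp only [indicator_of_mem hω]
      exact (h2 ω hω).1
    · simp only [indicator_of_notMem hω]
      exact continuous_const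
  · filter_upwards [compl_mem_ae_iff.2 hN3] with ω hω
    exact (indicator_of_mem hω _).symm

theorem exists_wiener : ∃ W, IsWiener W := by
  obtain ⟨Θ, _, P, B, _, hB⟩ := Tree.Bro.exists_isBrownianReal
  obtain ⟨B, m, c, h⟩ := version hB
  let Φ : Θ × Θ → Pa := fun p => ⟨fun t => B t p.1 + B t p.2 * Complex.I, by
    have := c p.1
    have := c p.2
    fun_prop⟩
  have e1 : ∀ p t, (Φ p t).re = B t p.1 := fun p t => by simp [Φ]
  have e2 : ∀ p t, (Φ p t).im = B t p.2 := fun p t => by simp [Φ]
  refine ⟨_, isWiener_map (P := P.prod P) (Φ := Φ) (measurable_of_ev fun t => ?_) ?_ ?_ ?_⟩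
  · have := m t
    show Measurable fun p : Θ × Θ => (B t p.1 + B t p.2 * Complex.I : ℂ)
    fun_prop
  · simp only [e1]
    exact ⟨fun I => (h.hasLaw I).comp measurePreserving_fst.hasLaw⟩
  · simp only [e2]
    exact ⟨fun I => (h.hasLaw I).comp measurePreserving_snd.hasLaw⟩
  · simp only [e1, e2]
    exact indepFun_prod (X := fun ω t => B t ω) (Y := fun ω t => B t ω)
      (measurable_pi_lambda _ m) (measurable_pi_lambda _ m)

/-! ### linear functionals of the path -/

/-- functionals which depend linearly on finitely many values -/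
def Lin : Submodule ℝ (Pa → ℝ) where
  carrier := {f | ∃ I : Finset ℝ≥0, ∃ L : (I → ℂ) →L[ℝ] ℝ, ∀ ω : Pa, f ω = L (I.restrict (ω ·))}
  add_mem' := by
    classical
    rintro f g ⟨I, L, hL⟩ ⟨J, M, hM⟩
    exact ⟨I ∪ J, L.comp (.pi fun i => .proj ⟨i.1, Finset.mem_union_left _ i.2⟩) +
      M.comp (.pi fun i => .proj ⟨i.1, Finset.mem_union_right _ i.2⟩), fun ω => by
        rw [Pi.add_apply, hL, hM]; rfl⟩
  zero_mem' := ⟨∅, 0, fun _ => rfl⟩
  smul_mem' := by
    rintro c f ⟨I, L, hL⟩
    exact ⟨I, c • L, fun ω => by rw [Pi.smul_apply, hL]; rfl⟩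

/-- the basic functionals -/
def E (c : ℂ) (t : ℝ≥0) : Lin := ⟨fun ω => (c * ω t).re, {t},
  (Complex.reCLM.comp (ContinuousLinearMap.mul ℝ ℂ c)).comp (.proj ⟨t, by simp⟩), fun _ => rfl⟩

@[simp] theorem E_apply (c : ℂ) (t : ℝ≥0) (ω : Pa) : (E c t).1 ω = (c * ω t).re := rfl

theorem Lin.measurable (f : Lin) : Measurable f.1 := by
  obtain ⟨f, I, L, h⟩ := f
  rw [show (⟨f, I, L, h⟩ : Lin).1 = _ from funext h]
  exact L.measurable.comp (measurable_pi_lambda _ fun i => measurable_ev _)

namespace IsWiener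

variable (h : IsWiener W)
include h

theorem gauss0 : IsGaussianProcess (fun t (ω : Pa) => ω t) W where
  hasGaussianLaw I := by
    have h1 := (h.ind.comp (φ := I.restrict) (ψ := I.restrict) (Finset.measurable_restrict I)
      (Finset.measurable_restrict I)).hasGaussianLaw (h.re.isGaussianProcess.hasGaussianLaw I)
      (h.im.isGaussianProcess.hasGaussianLaw I)
    let L : ((I → ℝ) × (I → ℝ)) →L[ℝ] I → ℂ := .pi fun i =>
      Complex.ofRealCLM.comp ((ContinuousLinearMap.proj i).comp (.fst ℝ _ _)) +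
      Complex.I • Complex.ofRealCLM.comp ((ContinuousLinearMap.proj i).comp (.snd ℝ _ _))
    refine (h1.map L).congr (.of_forall fun ω => funext fun i => ?_)
    simp [L, mul_comm Complex.I]

theorem gauss {S : Type*} (L : S → Lin) : IsGaussianProcess (fun s => (L s).1) W :=
  h.gauss0.of_isGaussianProcess fun s => (L s).2

theorem memLp (f : Lin) : MemLp f.1 2 W :=
  ((h.gauss fun _ : Unit => f).hasGaussianLaw_eval ()).memLp_two

theorem mean0 (t : ℝ≥0) : ∫ ω, ω t ∂W = 0 := by
  rw [← integral_re_add_im (h.gauss0.hasGaussianLaw_eval t).integrable]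
  have a := h.re.integral_eval t
  have b := h.im.integral_eval t
  simp only [RCLike.re_to_complex, RCLike.im_to_complex, a, b]
  simp

theorem mean (f : Lin) : ∫ ω, f.1 ω ∂W = 0 := by
  obtain ⟨f, I, L, e⟩ := f
  have i := (h.gauss0.hasGaussianLaw I).integrable
  simp only [e]
  rw [L.integral_comp_comm i, show ∫ ω : Pa, I.restrict (ω ·) ∂W = 0 from funext fun j => by
    rw [eval_integral (f := fun ω : Pa => I.restrict (ω ·))
      fun j => (h.gauss0.hasGaussianLaw_eval j.1).integrable]
    exact h.mean0 j, map_zero]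

/-- the covariance -/
def cv : Lin →ₗ[ℝ] Lin →ₗ[ℝ] ℝ :=
  haveI := h.prob
  LinearMap.mk₂ ℝ (fun f g => cov[f.1, g.1; W])
    (fun f f' g => covariance_add_left (h.memLp f) (h.memLp f') (h.memLp g))
    (fun c f g => covariance_smul_left c)
    (fun f g g' => covariance_add_right (h.memLp f) (h.memLp g) (h.memLp g'))
    (fun c f g => covariance_smul_right c)

theorem cv_eq (f g : Lin) : h.cv f g = cov[f.1, g.1; W] := rfl

theorem cv_E (c d : ℂ) (s t : ℝ≥0) : h.cv (E c s) (E d t) = (c * conj d).re * min (s : ℝ) t := by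
  have := h.prob
  have e : ∀ c t, E c t = c.re • E 1 t - c.im • E (-Complex.I) t := fun c t => by
    ext ω
    simp
  have a1 : ∀ s t, h.cv (E 1 s) (E 1 t) = min (s : ℝ) t := fun s t => by
    simpa [cv_eq, E] using h.re.covariance_fun_eval s t
  have a2 : ∀ s t, h.cv (E (-Complex.I) s) (E (-Complex.I) t) = min (s : ℝ) t := fun s t => by
    simpa [cv_eq, E] using h.im.covariance_fun_eval s t
  have a3 : ∀ s t, h.cv (E 1 s) (E (-Complex.I) t) = 0 := fun s t => by
    have := (h.ind.comp (measurable_pi_apply s) (measurable_pi_apply t)).covariance_eq_zero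
      (h.re.isGaussianProcess.hasGaussianLaw_eval s).memLp_two
      (h.im.isGaussianProcess.hasGaussianLaw_eval t).memLp_two
    simpa [cv_eq, E, Function.comp_def] using this
  have a4 : ∀ s t, h.cv (E (-Complex.I) s) (E 1 t) = 0 := fun s t => by
    rw [cv_eq, covariance_comm, ← h.cv_eq, a3]
  rw [e c s, e d t]
  simp only [map_sub, map_smul, LinearMap.sub_apply, LinearMap.smul_apply, a1, a2, a3, a4,
    smul_eq_mul, Complex.mul_re, Complex.conj_re, Complex.conj_im]
  ring

/-- independence from covariances -/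
theorem indep {S T : Type*} {X : Pa → S → ℂ} {Y : Pa → T → ℂ} (L : ℂ → S → Lin)
    (M : ℂ → T → Lin) (hL : ∀ c s ω, (L c s).1 ω = (c * X ω s).re)
    (hM : ∀ c t ω, (M c t).1 ω = (c * Y ω t).re) (hc : ∀ c d s t, h.cv (L c s) (M d t) = 0) :
    IndepFun X Y W := by
  have h1 := IsGaussianProcess.indepFun_of_covariance_eq_zero (P := W)
    (X := fun p : ℂ × S => (L p.1 p.2).1) (Y := fun p : ℂ × T => (M p.1 p.2).1) (by
      convert h.gauss (Sum.elim (fun p : ℂ × S => L p.1 p.2) fun p : ℂ × T => M p.1 p.2) using 2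
        with p
      cases p <;> rfl) (fun _ => (Lin.measurable _).aemeasurable)
    (fun _ => (Lin.measurable _).aemeasurable) fun p q => hc _ _ _ _
  convert h1.comp (φ := fun x s => (x (1, s) + x (-Complex.I, s) * Complex.I : ℂ))
    (ψ := fun x s => (x (1, s) + x (-Complex.I, s) * Complex.I : ℂ)) (by fun_prop) (by fun_prop)
    using 1
  · funext ω s
    simp [hL]
  · funext ω s
    simp [hM]

/-- invariance from covariances -/
theorem map_eq {Φ : Pa → Pa} (hΦ : Measurable Φ) (L : ℂ → ℝ≥0 → Lin)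
    (hL : ∀ c s ω, (L c s).1 ω = (c * Φ ω s).re)
    (hc : ∀ c d s t, h.cv (L c s) (L d t) = (c * conj d).re * min (s : ℝ) t) : W.map Φ = W := by
  have k : ∀ c : ℂ, (c * conj c).re = 1 → IsPreBrownianReal (fun t ω => (c * Φ ω t).re) W :=
    fun c e => by
      simp only [← hL]
      exact (h.gauss (L c)).isPreBrownianReal_of_covariance (fun t => h.mean _) fun s t hst => by
        rw [← h.cv_eq, hc, e, one_mul, min_eq_left (NNReal.coe_le_coe.2 hst)]
  refine (isWiener_map hΦ (by simpa using k 1 (by simp)) (by simpa using k (-Complex.I) (by simp))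
    ?_).unique h
  have h1 := IsGaussianProcess.indepFun_of_covariance_eq_zero (P := W)
    (X := fun s => (L 1 s).1) (Y := fun s => (L (-Complex.I) s).1) (by
      convert h.gauss (Sum.elim (L 1) (L (-Complex.I))) using 2 with p
      cases p <;> rfl) (fun _ => (Lin.measurable _).aemeasurable)
    (fun _ => (Lin.measurable _).aemeasurable) fun p q => by rw [← h.cv_eq, hc]; simp
  simpa [hL] using h1

theorem ae_zero : ∀ᵐ ω ∂W, ω 0 = 0 := by
  filter_upwards [h.re.eval_zero_ae_eq_zero, h.im.eval_zero_ae_eq_zero] with ω a b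
  exact Complex.ext a b

end IsWiener

end

end Vale.Agent.P155.BL
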